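import Vale.Agent.P159.TM.H574.UV
import Vale.Agent.P159.TM.H928.Zm

/-!
`CRUDE b`: second moments of child minus parent, from (3a) and the bare fourth moment.
-/

namespace Vale.Agent.P159.TM.H574

open Vale.Agent.P159.TM.SpecI
open Finset

theorem crude {b : ℝ} (hb : 0 ≤ b) : CRUDE b := by
  classical
  intro κ hκ
  refine ⟨9 * (76800 * Real.exp b + 1), by positivity, ?_⟩
  intro k j hj c hc1 hc2
  set q := 2 ^ (k - (j + 1)) with hq
  have hq1 : 1 ≤ q := Nat.one_le_two_pow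
  have hn : 2 ^ k = 2 ^ j * (2 * q) := by
    rw [hq, ← pow_succ', ← pow_add]
    congr 1
    omega
  have h2j : 2 ^ (j + 1) = 2 * 2 ^ j := pow_succ' 2 j
  have q1 : (c.1 / 2 + 1) * (2 * q) ≤ 2 ^ k := by
    rw [hn]; exact Nat.mul_le_mul_right _ (by omega)
  have q2 : (c.2 / 2 + 1) * (2 * q) ≤ 2 ^ k := by
    rw [hn]; exact Nat.mul_le_mul_right _ (by omega)
  set g : V (2 ^ k) → ℝ := dc q c with hg
  have hg0 : ∑ x, g x = 0 := sum_dc hq1 c
  have hgb : ∀ x, |g x| ≤ 3 / ((2 * q : ℕ) : ℝ) ^ 2 := fun x => (dc_facts hq1 q1 q2 x).1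
  have hgs : ∀ x, x ∉ bx (c.1 / 2 * (2 * q), c.2 / 2 * (2 * q)) (2 * q) → g x = 0 :=
    fun x => (dc_facts hq1 q1 q2 x).2
  have hDg : ∀ h : V (2 ^ k) → ℤ, Dc q c h = pr g h := fun h => Dc_lin q c h
  simp only [hDg]
  set g' : V (2 ^ k) → ℝ := fun x => g x / 3 with hg'
  have hg'0 : ∑ x, g' x = 0 := by
    rw [hg', ← sum_div, hg0, zero_div]
  have hg'b : ∀ x, |g' x| ≤ 1 / ((2 * q : ℕ) : ℝ) ^ 2 := fun x => by
    rw [hg']
    simp only
    rw [abs_div, abs_of_pos (show (0 : ℝ) < 3 by norm_num), div_le_iff₀ (by norm_num)]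
    calc |g x| ≤ 3 / ((2 * q : ℕ) : ℝ) ^ 2 := hgb x
      _ = _ := by ring
  have hg's : ∀ x, x ∉ bx (c.1 / 2 * (2 * q), c.2 / 2 * (2 * q)) (2 * q) → g' x = 0 :=
    fun x hx => by
      rw [hg']
      simp only
      rw [hgs x hx, zero_div]
  have hpr : ∀ h : V (2 ^ k) → ℤ, pr g h = 3 * pr g' h := fun h => by
    unfold pr
    rw [mul_sum]
    exact sum_congr rfl fun x _ => by rw [hg']; ring
  have up := upper_A (g := g') (p := (0, 0)) (s := 2 ^ k) hb hκ (show j ≤ k by omega)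
    (by simp) (by simp) Nat.one_le_two_pow hg'0 (fun x hx => by
      rw [bx_full] at hx
      exact absurd (mem_univ x) hx)
  rw [eb_full, bx_full, compl_univ, empty_union] at up
  have e1 : (c.1 / 2 + 1) * (2 * q) = c.1 / 2 * (2 * q) + 2 * q := by ring
  have e2 : (c.2 / 2 + 1) * (2 * q) = c.2 / 2 * (2 * q) + 2 * q := by ring
  have hX : ({cnr (0, 0)} : Finset (V (2 ^ k))).Nonempty := singleton_nonempty _
  have zm := H928.zm_neut (n := 2 ^ k) hb hX
    (q := (c.1 / 2 * (2 * q), c.2 / 2 * (2 * q))) (r := 2 * q) (by omega) (by simp only; omega)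
    (by simp only; omega) hg'0 hg's hg'b
  have sg0 : H22.SG (wt b (inn (2 ^ k)) {cnr (0, 0)} (fun _ => 0)) :=
    sg_wt hb (fun _ => le_rfl) (fun _ => rfl) (coe_pin hX _)
  have gP : H22.Gr fun h : V (2 ^ k) → ℤ => pr g' h ^ 4 := by
    have h3 := (gr_sq (V := V (2 ^ k)) g').mul (gr_sq g')
    refine h3.mono fun h => ?_
    have : pr g' h = H22.lin g' h := rfl
    rw [this, show H22.lin g' h ^ 4 = H22.lin g' h ^ 2 * H22.lin g' h ^ 2 by ring]
  have h4 : ex b (inn (2 ^ k)) {cnr (0, 0)} (fun _ => 0) (fun h => pr g' h ^ 2) ≤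
      ex b (inn (2 ^ k)) {cnr (0, 0)} (fun _ => 0) (fun h => pr g' h ^ 4) + 1 := by
    have e3 : ex b (inn (2 ^ k)) {cnr (0, 0)} (fun _ => 0) (fun _ => (1 : ℝ)) = 1 := by
      rw [ex_eq]
      exact div_self (MM_one_pos hb sg0).ne'
    have hle : ex b (inn (2 ^ k)) {cnr (0, 0)} (fun _ => 0) (fun h => pr g' h ^ 2) ≤
        ex b (inn (2 ^ k)) {cnr (0, 0)} (fun _ => 0) (fun h => pr g' h ^ 4 + 1) := by
      rw [ex_eq, ex_eq]
      refine div_le_div_of_nonneg_right ?_ (MM_one_pos hb sg0).le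
      refine (sg0.sum (gr_sq g')).tsum_le_tsum (fun x => ?_) (sg0.sum (gP.add (H22.Gr.const 1)))
      refine mul_le_mul_of_nonneg_left ?_ (sg0.nonneg x)
      show pr g' x ^ 2 ≤ pr g' x ^ 4 + 1
      nlinarith [sq_nonneg (pr g' x ^ 2 - 1), sq_nonneg (pr g' x ^ 2)]
    refine hle.trans_eq ?_
    rw [ex_eq, H22.MM_add sg0 gP (H22.Gr.const 1), add_div, ← ex_eq, ← ex_eq, e3]
  have e4 : (fun h : V (2 ^ k) → ℤ => pr g h ^ 2) = fun h => 9 * pr g' h ^ 2 := by
    funext h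
    rw [hpr]
    ring
  have e5 : exA b κ k j (fun h => 9 * pr g' h ^ 2) = 9 * exA b κ k j (fun h => pr g' h ^ 2) := by
    unfold exA ex
    rw [← mul_div_assoc, ← tsum_mul_left]
    congr 1
    exact tsum_congr fun h => by ring
  rw [e4, e5]
  have := zm.2
  linarith

end Vale.Agent.P159.TM.H574
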