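import Vale.Agent.P159.TM.H574.Cmp

/-!
(3a) for all increasing observables of the gradient inside a square, e.g. `cosh`.
-/

open Filter Topology

namespace Vale.Agent.P159.TM.H574

open Vale.Agent.P159.TM.H22 (SG Gle lin)
open Vale.Agent.P159.TM.SpecI
open Vale.Agent.P159.H353 (wI wI_nonneg wI_neg wI_zero_pos)
open Finset

lemma inc_cosh {U : Type} [Fintype U] (r : U → ℝ) : Inc fun h : U → ℤ => Real.cosh (lin r h) := by
  refine ⟨H22.Gr.cosh r, fun h => √2 * Real.sinh (lin (fun x => 1 / 2 * r x) h),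
    (H22.Gr.const (√2)).mul (H22.Gr.sinh _), fun h k => ?_⟩
  simp only
  rw [lin_hsmul, lin_hsmul, H22.lin_add, H22.lin_sub]
  have e1 := Real.cosh_add ((lin r h + lin r k) / 2) ((lin r h - lin r k) / 2)
  have e2 := Real.cosh_sub ((lin r h + lin r k) / 2) ((lin r h - lin r k) / 2)
  rw [show (lin r h + lin r k) / 2 + (lin r h - lin r k) / 2 = lin r h by ring] at e1
  rw [show (lin r h + lin r k) / 2 - (lin r h - lin r k) / 2 = lin r k by ring] at e2
  have e3 : √2 * √2 = (2 : ℝ) := Real.mul_self_sqrt (by norm_num)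
  linear_combination e1 - e2 - (Real.sinh ((lin r h + lin r k) / 2) *
    Real.sinh ((lin r h - lin r k) / 2)) * e3

section cmp

variable {n : ℕ} [NeZero n]

lemma mass_pos_inc {p : ℕ × ℕ} {s : ℕ} (h1 : p.1 + s ≤ n) (h2 : p.2 + s ≤ n) (hs : 1 ≤ s)
    {b : ℝ} (hb : 0 ≤ b) {l : ℝ} (hl : 0 < l) {F : (V n → ℤ) → ℝ} (gF' : H22.Gr F)
    (hF' : ∀ h, F (rst p s h) = F h) :
    ex b (eb p s) ∅ (fun h => l * ∑ x ∈ (bx p s)ᶜ ∪ {cnr p}, (h x : ℝ) ^ 2) F =
      ex b (eb p s) ((bx p s)ᶜ ∪ {cnr p}) (fun _ => 0) F := by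
  classical
  set Y : Finset (V n) := (bx p s)ᶜ ∪ {cnr p} with hY
  set a : (V n → ℤ) → ℝ := fun h => ∏ e ∈ eb p s, wI b (h (tgt e) - h e.1) with ha
  set u : (V n → ℤ) → ℝ := fun h => Real.exp (-(l * ∑ x ∈ Y, (h x : ℝ) ^ 2) / 2) with hu
  set π : (V n → ℤ) →+ (V n → ℤ) := rst p s with hπ
  have hππ : ∀ h, π (π h) = π h := fun h => rst_rst p s h
  -- weights
  have w1 : ∀ h, wt b (eb p s) ∅ (fun h => l * ∑ x ∈ Y, (h x : ℝ) ^ 2) h =
      a (π h) * u (h - π h) := by
    intro h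
    unfold wt
    rw [if_pos (by simp), one_mul]
    congr 1
    · refine prod_congr rfl fun e he => ?_
      unfold eb at he
      rw [mem_filter] at he
      rw [hπ, rst_apply, rst_apply, if_pos he.2.1, if_pos he.2.2]
      congr 1
      ring
    · rw [hu]
      simp only
      congr 4
      refine sum_congr rfl fun x hx => ?_
      have : π h x = 0 := (rst_eq_iff h1 h2 hs (π h)).1 (hππ h) x hx
      rw [Pi.sub_apply, this, sub_zero]
  have w2 : ∀ h, wt b (eb p s) Y (fun _ => 0) h =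
      Set.indicator {g : V n → ℤ | π g = g} a h := by
    intro h
    unfold wt Set.indicator
    by_cases h3 : ∀ x ∈ Y, h x = 0
    · have h4 : π h = h := (rst_eq_iff h1 h2 hs h).2 h3
      rw [if_pos h3, if_pos (by exact h4)]
      simp [ha]
    · have h4 : ¬ π h = h := fun h5 => h3 ((rst_eq_iff h1 h2 hs h).1 h5)
      rw [if_neg h3, if_neg (by exact h4)]
      simp
  -- summability
  have sgY : SG (wt b (eb p s) Y (fun _ => 0)) :=
    sg_wt hb (fun _ => le_rfl) (fun _ => rfl) (coe_sq h1 h2 _)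
  have sg0 : SG (wt b (eb p s) ∅ (fun h => l * ∑ x ∈ Y, (h x : ℝ) ^ 2)) := by
    refine sg_wt hb (fun h => by positivity) (fun h => by simp) (coe_lam h1 h2 hl)
  have gF : ∀ F : (V n → ℤ) → ℝ, H22.Gr F → Summable fun g : {g // π g = g} => a g * F g := by
    intro F hF
    have h3 := sgY.sum hF
    have h4 := h3.comp_injective (i := fun g : {g // π g = g} => (g : V n → ℤ))
      Subtype.val_injective
    refine h4.congr fun g => ?_
    simp only [Function.comp]
    rw [w2, Set.indicator_of_mem (by exact g.2)]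
  have hku : ∀ k : {k // π k = 0}, wt b (eb p s) ∅ (fun h => l * ∑ x ∈ Y, (h x : ℝ) ^ 2) k =
      a 0 * u k := fun k => by rw [w1, k.2, sub_zero]
  have a0 : 0 < a 0 := by
    rw [ha]
    refine prod_pos fun e _ => ?_
    simpa using wI_zero_pos hb
  have su : Summable fun k : {k // π k = 0} => u k := by
    have h3 := sg0.sum (H22.Gr.const (1 : ℝ))
    have h4 := h3.comp_injective (i := fun g : {k // π k = 0} => (g : V n → ℤ))
      Subtype.val_injective
    have h5 := h4.mul_left (a 0)⁻¹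
    refine h5.congr fun k => ?_
    simp only [Function.comp]
    rw [hku, mul_one, ← mul_assoc, inv_mul_cancel₀ a0.ne', one_mul]
  have hU : 0 < ∑' k : {k // π k = 0}, u k := by
    refine lt_of_lt_of_le (Real.exp_pos _) (su.le_tsum ⟨0, map_zero π⟩ fun k _ =>
      (Real.exp_pos _).le)
  -- sums
  have key : ∀ F : (V n → ℤ) → ℝ, H22.Gr F → (∀ h, F (π h) = F h) →
      H22.MM (wt b (eb p s) ∅ (fun h => l * ∑ x ∈ Y, (h x : ℝ) ^ 2)) F =
        H22.MM (wt b (eb p s) Y (fun _ => 0)) F * ∑' k : {k // π k = 0}, u k := by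
    intro F hF hFπ
    have h3 := prod_fib π hππ (a := fun g => a g * F g) (u := u) (gF F hF) su
    have h4 : H22.MM (wt b (eb p s) Y (fun _ => 0)) F =
        ∑' g : {g // π g = g}, a g * F g := by
      unfold H22.MM
      have h5 := tsum_subtype {g : V n → ℤ | π g = g} fun g => a g * F g
      rw [show (∑' g : {g // π g = g}, a g * F g) =
        ∑' g : ({g : V n → ℤ | π g = g} : Set (V n → ℤ)), a g * F g from rfl, h5]
      refine tsum_congr fun h => ?_
      rw [w2]
      unfold Set.indicator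
      split_ifs <;> ring
    rw [h4, ← h3]
    unfold H22.MM
    refine tsum_congr fun h => ?_
    rw [w1, hFπ]
    ring
  have k1 := key F gF' hF'
  have k2 := key (fun _ => 1) (H22.Gr.const 1) fun _ => rfl
  rw [ex_eq, ex_eq, k1, k2]
  have := MM_one_pos hb sgY
  field_simp

/-- **(3a)** for increasing observables of the gradient inside the square -/
theorem upper_inc {b : ℝ} (hb : 0 ≤ b) {M : (V n → ℤ) → ℝ} (hM : SQ M) (hc : Coe (inn n) ∅ M)
    {p : ℕ × ℕ} {s : ℕ} (h1 : p.1 + s ≤ n) (h2 : p.2 + s ≤ n) (hs : 1 ≤ s) {F : (V n → ℤ) → ℝ} (hF : Inc F)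
    (hF' : ∀ h, F (rst p s h) = F h) :
    ex b (inn n) ∅ M F ≤ ex b (eb p s) ((bx p s)ᶜ ∪ {cnr p}) (fun _ => 0) F := by
  classical
  set Y : Finset (V n) := (bx p s)ᶜ ∪ {cnr p} with hY
  set R : (V n → ℤ) → ℝ := fun h => ∑ x ∈ Y, (h x : ℝ) ^ 2 with hR
  have sqR : SQ R := by
    refine (SQ.sum (U := V n) Y (v := fun _ => 1) (fun _ _ => zero_le_one)
      (fun x => Pi.single x 1)).congr fun h => ?_
    rw [hR]
    refine sum_congr rfl fun x _ => ?_
    unfold lin
    rw [one_mul]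
    congr 1
    simp [Pi.single_apply]
  have hwM : SG (wt b (inn n) ∅ M) := sg_wt hb hM.nonneg hM.even hc
  have hle : ∀ l : ℝ, 0 < l → ex b (inn n) ∅ (fun h => l * R h + M h) F ≤
      ex b (eb p s) Y (fun _ => 0) F := by
    intro l hl
    rw [← mass_pos_inc h1 h2 hs hb hl hF.1 hF']
    exact ex_mono hb (eb_sub p s) subset_rfl (sqR.smul hl.le) hM (coe_lam h1 h2 hl) hF
  have hw : ∀ (l : ℝ) (h : V n → ℤ), wt b (inn n) ∅ (fun h => l * R h + M h) h =
      wt b (inn n) ∅ M h * Real.exp (-(l * (R h / 2))) := by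
    intro l h
    unfold wt
    rw [show -(l * R h + M h) / 2 = -(M h) / 2 + -(l * (R h / 2)) by ring, Real.exp_add]
    ring
  have hlim : ∀ F : (V n → ℤ) → ℝ, H22.Gr F → Tendsto (fun l : ℝ =>
      H22.MM (wt b (inn n) ∅ (fun h => l * R h + M h)) F) (𝓝[>] 0)
      (𝓝 (H22.MM (wt b (inn n) ∅ M) F)) := by
    intro F hF
    have h3 := tendsto_exp0 (a := fun h => wt b (inn n) ∅ M h * F h) (b := fun h => R h / 2)
      (fun h => by rw [hR]; positivity) (hwM.sabs hF)
    refine h3.congr fun l => ?_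
    unfold H22.MM
    exact tsum_congr fun h => by rw [hw]; ring
  have h4 := (hlim _ hF.1).div (hlim _ (H22.Gr.const 1)) (MM_one_pos hb hwM).ne'
  have h5 : Tendsto (fun l : ℝ => ex b (inn n) ∅ (fun h => l * R h + M h) F)
      (𝓝[>] 0) (𝓝 (ex b (inn n) ∅ M F)) := by
    rw [ex_eq]
    refine Tendsto.congr (fun l => ?_) h4
    rw [ex_eq]
    rfl
  refine le_of_tendsto h5 ?_
  filter_upwards [self_mem_nhdsWithin] with l hl
  exact hle l hl

end cmp

end Vale.Agent.P159.TM.H574
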