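import Vale.Agent.P159.TM.H574.Zero
import Vale.Agent.P159.TM.H574.Up
import Vale.Agent.P159.TM.H928.Idwi

/-!
`MOM4 b`: fourth moments along the mass path.
-/

open MeasureTheory Filter Topology

namespace Vale.Agent.P159.TM.H574

open Vale.Agent.P159.TM.H22 (SG Gle lin)
open Vale.Agent.P159.TM.SpecI
open Vale.Agent.P159.TM.H928 (ss tt vp mv grid_V conn_V flow_neutral cosh_bare_sq ex_inn sum_coord
  pr_coord IsGrid)
open Finset

/-- exponential moment of a neutral functional in the pinned box without mass -/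
theorem neut_cosh {b : ℝ} (hb : 0 ≤ b) {n : ℕ} [NeZero n] (hn : 2 ≤ n) {X : Finset (V n)}
    (hX : X.Nonempty) {ψ : V n → ℝ} (hs : ∑ x, ψ x = 0) (h1 : ∀ x, |ψ x| ≤ 1 / (n : ℝ) ^ 2) :
    ex b (inn n) X (fun _ => 0) (fun h => Real.cosh (pr ψ h / 2)) ≤ Real.exp (b * 3) := by
  have hg : ∀ x, x ∉ bx (n := n) (0, 0) n → ψ x = 0 := fun x hx => by
    rw [bx_full] at hx
    exact absurd (mem_univ x) hx
  have hgr : IsGrid (ss n) (tt n) (fun i j => vp n (((0, 0) : ℕ × ℕ).1 + i) (((0, 0) : ℕ × ℕ).2 + j)) n n :=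
    grid_V.shift (by simp) (by simp)
  obtain ⟨a, a1, a2, a3⟩ := flow_neutral (r := n) (by omega) hgr
    (fun i j => ψ (vp n (((0, 0) : ℕ × ℕ).1 + i) (((0, 0) : ℕ × ℕ).2 + j)))
    (by rw [← sum_coord (by simp) (by simp) hg, hs]) (fun i j _ _ => h1 _)
  have hn' : (2 : ℝ) ≤ n := by exact_mod_cast hn
  have e : ∀ h : V n → ℤ, pr ψ h / 2 = H928.lf (ss n) (tt n) (fun e => (1 / 2) * a e) h := by
    intro h
    rw [H928.lf_smul, pr_coord (q := (0, 0)) (by simp) (by simp) hg, a1]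
    unfold H928.lf
    ring
  rw [ex_inn hb]
  simp only [e]
  refine cosh_bare_sq conn_V (fun _ => hb) (fun _ => le_rfl) (by exact_mod_cast hX) (fun e => ?_) ?_
    hb
  · rw [abs_mul, abs_of_pos (by norm_num : (0 : ℝ) < 1 / 2)]
    have h3 := a2 e
    have h4 : 3 / (n : ℝ) ≤ 3 / 2 := div_le_div_of_nonneg_left (by norm_num) (by norm_num) hn'
    linarith
  · have h5 : ∑ e, (1 / 2 * a e) ^ 2 = 1 / 4 * ∑ e, a e ^ 2 := by
      rw [mul_sum]
      exact sum_congr rfl fun e _ => by ring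
    rw [h5]
    linarith

lemma pow4_le_cosh (x : ℝ) : x ^ 4 ≤ 24 * Real.cosh x := by
  have h3 : x ^ (2 * 2) / ((2 * 2).factorial : ℝ) ≤ Real.cosh x :=
    le_hasSum (Real.hasSum_cosh x) 2 fun n _ => by
      have : 0 ≤ x ^ (2 * n) := by rw [pow_mul]; positivity
      positivity
  have hf : ((2 * 2).factorial : ℝ) = 24 := by norm_num [Nat.factorial]
  rw [hf, div_le_iff₀ (by norm_num)] at h3
  calc x ^ 4 = x ^ (2 * 2) := by norm_num
    _ ≤ _ := h3
    _ = _ := by ring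

/-- **`MOM4 b`** -/
theorem mom4 {b : ℝ} (hb : 0 ≤ b) : MOM4 b := by
  classical
  intro κ hκ
  refine ⟨8 * (6144 * Real.exp (b * 3)) + 8 * Cz κ + 1, ?_, ?_⟩
  · have : 0 ≤ Cz κ := by
      unfold Cz
      have : 0 ≤ ∑' z : ℤ, (1 + (z : ℝ) ^ 4) * Real.exp (-(κ ^ 2 * (z : ℝ) ^ 2 / 4)) :=
        tsum_nonneg fun z => by positivity
      positivity
    positivity
  intro k j hj t ht ht1 φ hφ
  obtain ⟨sg, hz⟩ := zero_mom (b := b) (κ := κ) hb hκ hj ht ht1
  set M : (V (2 ^ k) → ℤ) → ℝ := fun h => (1 - t) * massA κ k j h + t * massA κ k (j + 1) h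
    with hM
  have sqM : SQ M := ((sq_massA κ k j).smul (sub_nonneg.2 ht1)).add
    ((sq_massA κ k (j + 1)).smul ht)
  have hle : ∀ h, massA κ k 0 h ≤ M h := fun h => by
    have h1 := massA_le (κ := κ) (show j ≤ k by omega) h
    have h2 := massA_le (κ := κ) hj h
    rw [hM]
    simp only
    nlinarith [sub_nonneg.2 ht1]
  have coM : Coe (inn (2 ^ k)) ∅ M :=
    (coe_massA hκ (Nat.zero_le k)).mono subset_rfl subset_rfl hle
  -- decomposition
  have hk2 : 2 ≤ 2 ^ k := by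
    calc 2 = 2 ^ 1 := by norm_num
      _ ≤ 2 ^ k := Nat.pow_le_pow_right (by norm_num) (by omega)
  have hcard : ((2 ^ k : ℕ) : ℝ) ^ 2 = 4 ^ k := by
    push_cast
    rw [← pow_mul, mul_comm, pow_mul]
    norm_num
  set s : ℝ := ∑ x, φ x with hs
  have hs1 : |s| ≤ 1 := by
    calc |s| ≤ ∑ x, |φ x| := abs_sum_le_sum_abs _ _
      _ ≤ ∑ _x : V (2 ^ k), 1 / (4 : ℝ) ^ k := sum_le_sum fun x _ => hφ x
      _ = 1 := by
          rw [sum_const, card_univ, nsmul_eq_mul, Fintype.card_prod, ZMod.card]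
          push_cast
          rw [← pow_add, ← two_mul, pow_mul]
          norm_num
  set av : V (2 ^ k) → ℝ := avc (2 ^ k) (0, 0) with hav
  have hav1 : ∀ x, av x = 1 / 4 ^ k := by
    intro x
    rw [hav, avc_eq (by simp) (by simp), if_pos]
    · rw [← hcard]
    · simp only [zero_mul]
      rw [bx_full]
      exact mem_univ x
  set ψ : V (2 ^ k) → ℝ := fun x => (φ x - s * av x) / 2 with hψ
  have hψ0 : ∑ x, ψ x = 0 := by
    rw [hψ, ← sum_div, sum_sub_distrib, ← mul_sum, hav, sum_avc Nat.one_le_two_pow, ← hs]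
    ring
  have hψ1 : ∀ x, |ψ x| ≤ 1 / ((2 ^ k : ℕ) : ℝ) ^ 2 := by
    intro x
    rw [hcard, hψ]
    simp only
    rw [abs_div, abs_of_pos (by norm_num : (0 : ℝ) < 2), div_le_iff₀ (by norm_num)]
    calc |φ x - s * av x| ≤ |φ x| + |s * av x| := abs_sub _ _
      _ ≤ 1 / 4 ^ k + 1 * (1 / 4 ^ k) := by
          refine add_le_add (hφ x) ?_
          rw [abs_mul, hav1, abs_of_pos (show (0 : ℝ) < 1 / 4 ^ k by positivity)]
          exact mul_le_mul_of_nonneg_right hs1 (by positivity)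
      _ = 1 / 4 ^ k * 2 := by ring
  have hdec : ∀ h : V (2 ^ k) → ℤ, pr φ h = 4 * (pr ψ h / 2) + s * SpecI.avg (2 ^ k) (0, 0) h := by
    intro h
    rw [avg_lin]
    unfold pr lin
    rw [mul_sum, sum_div, mul_sum, ← sum_add_distrib]
    refine sum_congr rfl fun x _ => ?_
    simp only [hψ, hav]
    ring
  -- neutral part
  have F0 : ∀ h : V (2 ^ k) → ℤ, Real.cosh (pr ψ h / 2) =
      Real.cosh (lin (fun x => 1 / 2 * ψ x) h) := fun h => by
    rw [lin_hsmul]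
    rfl
  have iF : Inc fun h : V (2 ^ k) → ℤ => Real.cosh (pr ψ h / 2) := by
    simp only [F0]
    exact inc_cosh _
  have up := upper_inc (n := 2 ^ k) (p := (0, 0)) (s := 2 ^ k) hb sqM coM (by simp) (by simp)
    Nat.one_le_two_pow iF (fun h => by
      rw [pr_rst hψ0 (fun x hx => by
        rw [bx_full] at hx
        exact absurd (mem_univ x) hx)])
  rw [eb_full, bx_full, compl_univ, empty_union] at up
  have hN := up.trans (neut_cosh hb hk2 (singleton_nonempty _) hψ0 hψ1)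
  -- fourth power
  have gA : H22.Gr fun h : V (2 ^ k) → ℤ => SpecI.avg (2 ^ k) (0, 0) h ^ 4 := by
    have h3 := (gr_sq (V := V (2 ^ k)) (avc (2 ^ k) (0, 0))).mul (gr_sq (avc (2 ^ k) (0, 0)))
    refine h3.mono fun h => ?_
    rw [avg_lin, show lin (avc (2 ^ k) (0, 0)) h ^ 4 =
      lin (avc (2 ^ k) (0, 0)) h ^ 2 * lin (avc (2 ^ k) (0, 0)) h ^ 2 by ring]
  have gP : H22.Gr fun h : V (2 ^ k) → ℤ => pr φ h ^ 4 := by
    have h3 := (gr_sq (V := V (2 ^ k)) φ).mul (gr_sq φ)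
    refine h3.mono fun h => ?_
    have : pr φ h = lin φ h := rfl
    rw [this, show lin φ h ^ 4 = lin φ h ^ 2 * lin φ h ^ 2 by ring]
  have hpt : ∀ h : V (2 ^ k) → ℤ, pr φ h ^ 4 ≤ 8 * 6144 * Real.cosh (pr ψ h / 2) +
      8 * SpecI.avg (2 ^ k) (0, 0) h ^ 4 := by
    intro h
    rw [hdec]
    set x := pr ψ h / 2 with hx
    set y := SpecI.avg (2 ^ k) (0, 0) h with hy
    have h1 := pow4_le_cosh x
    have h2 : (4 * x + s * y) ^ 4 ≤ 8 * ((4 * x) ^ 4 + (s * y) ^ 4) := by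
      have : (4 * x + s * y) ^ 2 ≤ 2 * ((4 * x) ^ 2 + (s * y) ^ 2) := by
        nlinarith [sq_nonneg (4 * x - s * y)]
      have h3 : ((4 * x + s * y) ^ 2) ^ 2 ≤ (2 * ((4 * x) ^ 2 + (s * y) ^ 2)) ^ 2 :=
        pow_le_pow_left₀ (sq_nonneg _) this 2
      nlinarith [sq_nonneg ((4 * x) ^ 2 - (s * y) ^ 2)]
    have h4 : (s * y) ^ 4 ≤ y ^ 4 := by
      rw [mul_pow]
      have h5 : s ^ 4 ≤ 1 := by
        have h6 : s ^ 2 ≤ 1 := by
          rw [← sq_abs]
          have := abs_nonneg s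
          nlinarith
        nlinarith [sq_nonneg s]
      have : 0 ≤ y ^ 4 := by positivity
      nlinarith
    have h7 : (4 * x) ^ 4 = 256 * x ^ 4 := by ring
    rw [h7] at h2
    linarith
  have hfin : ex b (inn (2 ^ k)) ∅ M (fun h => pr φ h ^ 4) ≤
      ex b (inn (2 ^ k)) ∅ M (fun h => 8 * 6144 * Real.cosh (pr ψ h / 2) +
        8 * SpecI.avg (2 ^ k) (0, 0) h ^ 4) := by
    rw [ex_eq, ex_eq]
    refine div_le_div_of_nonneg_right ?_ (MM_one_pos hb sg).le
    exact (sg.sum gP).tsum_le_tsum (fun h => mul_le_mul_of_nonneg_left (hpt h) (sg.nonneg h))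
      (sg.sum ((iF.1.const_mul _).add (gA.const_mul _)))
  refine hfin.trans ?_
  rw [ex_eq, H22.MM_add sg (iF.1.const_mul _) (gA.const_mul _), H22.MM_mul_left,
    H22.MM_mul_left, add_div, mul_div_assoc, mul_div_assoc, ← ex_eq, ← ex_eq]
  have h8 := mul_le_mul_of_nonneg_left hN (show (0 : ℝ) ≤ 8 * 6144 by norm_num)
  have h9 := mul_le_mul_of_nonneg_left hz (show (0 : ℝ) ≤ 8 by norm_num)
  linarith

end Vale.Agent.P159.TM.H574
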