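import Vale.Agent.P159.TM.H574.Stmt

/-!
Literal statement (ZM): zero-b.c. moments without mass.
-/

namespace Vale.Agent.P159.TM.H574

open Finset Vale.Agent.P159.TM.SpecI

/-- (ZM) fourth moments under zero boundary conditions outside the square `bx p L` -/
def ZM (b : ℝ) : Prop :=
  ∃ C : ℝ, 0 < C ∧ ∀ (n : ℕ) [NeZero n] (p : ℕ × ℕ) (L : ℕ), 1 ≤ p.1 → 1 ≤ p.2 →
    p.1 + L + 1 ≤ n → p.2 + L + 1 ≤ n →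
    (∀ (r : ℕ) (d : ℕ × ℕ), 2 ≤ r → p.1 ≤ d.1 → p.2 ≤ d.2 → d.1 + r ≤ p.1 + L →
      d.2 + r ≤ p.2 + L → ∀ g : V n → ℝ, ∑ x, g x = 0 → (∀ x, x ∉ bx d r → g x = 0) →
      (∀ x, |g x| ≤ 1 / (r : ℝ) ^ 2) →
      ex b (inn n) (bx p L)ᶜ (fun _ => 0) (fun h => pr g h ^ 4) ≤ C) ∧
    ∀ (q : ℕ) (c : ℕ × ℕ), 1 ≤ q → q ≤ L → p.1 ≤ c.1 * q → p.2 ≤ c.2 * q →
      (c.1 + 1) * q ≤ p.1 + L → (c.2 + 1) * q ≤ p.2 + L →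
      ex b (inn n) (bx p L)ᶜ (fun _ => 0) (fun h => avg q c h ^ 4) ≤ C * ((L : ℝ) / q) ^ 2

end Vale.Agent.P159.TM.H574
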