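import Vale.Agent.P159.TM.H574.Muv
import Vale.Agent.P159.TM.H574.Crude
import Vale.Agent.P159.TM.H574.Mom4
import Vale.Agent.P159.TM.H928.ZmL

/-!
`UV b` from the constants of the annuli.
-/

namespace Vale.Agent.P159.TM.H574

open Vale.Agent.P159.TM.SpecI

theorem uv_kann {b : ℝ} (hb : 0 ≤ b) (hK : H928.KANN b) : UV b :=
  uv_of hb (muv_of hb (H928.idwi hb hK) (H928.zm hb)) (crude hb) (mom4 hb)

end Vale.Agent.P159.TM.H574
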