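import Vale.Agent.P159.TM.H574.Down
import Vale.Agent.P159.TM.H426.Pp
import Vale.Agent.P159.TM.H103.Back
import Vale.Agent.P159.TM.H58.Spec

/-!
# P159, T1, row R9: circuits from free arms at the top scales and one open edge

`ArmTor` = the arms of the torus law at the scales `ξ / (20 A) ≤ t ≤ ξ / A` (146, 77, 859),
`EdgeTor` = one open edge with positive probability (426).
-/

open scoped ENNReal
open Finset

namespace Vale.Agent.P159.TM.H574

open Vale.Agent.P145.FB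
open Vale.Agent.P159.TM.H459
open Vale.Agent.P159.TM.H576 (Ex ind)

/-- free arms of the two-copy torus law at the scales `ξ / (20 A) ≤ t ≤ ξ / A`, with a probability
chosen before `A` -/
def ArmTor (b1 b2 a : ℝ) : Prop :=
  ∃ p1 : ℝ, 0 < p1 ∧ ∃ A₁ : ℕ, ∀ A : ℕ, A₁ ≤ A → ∃ W₀ : ℝ, ∀ W : ℝ, W₀ ≤ W → ∃ ys : ℝ,
    ∃ X : ℕ, 0 < ys ∧ ∀ (N : ℕ) [NeZero N] (b : ℝ) (hb : 0 < b) (ξ : ℕ) (hξ : 0 < ξ) (y : ℝ),
      Spec.Rng b1 b2 a W ys X N b ξ y → ∀ t : ℤ, 1 ≤ t → ((ξ / A : ℕ) : ℤ) ≤ 20 * t →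
        t ≤ ((ξ / A : ℕ) : ℤ) → p1 ≤ (H426.ppT N b ξ hb hξ).p (H121.Out t)

/-- one open edge with positive ends -/
def EdgeTor (b1 b2 : ℝ) : Prop :=
  ∃ c1 : ℝ, 0 < c1 ∧ ∃ X : ℕ, ∀ (N : ℕ) [NeZero N] (b : ℝ) (hb : 0 < b) (ξ : ℕ) (hξ : 0 < ξ),
    b1 ≤ b → b ≤ b2 → X ≤ ξ → X * ξ ≤ N → c1 ≤ (H426.ppT N b ξ hb hξ).L 1 0

theorem red_even (N : ℕ) (i j : ℤ) : H426.red N (2 * i, 2 * j) = H103.pr N i j := by
  unfold H426.red H103.pr
  have e1 : 2 * i / 2 = i := by omega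
  have e2 : 2 * j / 2 = j := by omega
  dsimp only
  rw [e1, e2]

theorem liftS {N : ℕ} [NeZero N] (D : Spec.V N → ℤ) (P : Finset (Spec.E N)) :
    H103.LiftS D P (H426.Lf D P) where
  vert := by
    intro i j h
    rcases h with ⟨h1, h2, h3⟩ | ⟨h1, h2, h3⟩ | ⟨h1, h2, h3⟩
    · rwa [red_even] at h3
    · dsimp only at h1
      omega
    · dsimp only at h2
      omega
  hor := by
    intro i j h
    rcases h with ⟨h1, h2, h3⟩ | ⟨h1, h2, h3⟩ | ⟨h1, h2, h3⟩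
    · dsimp only at h1
      omega
    · have e : H426.red N (2 * i + 1, 2 * j) = H103.pr N i j := by
        unfold H426.red H103.pr
        have e1 : (2 * i + 1) / 2 = i := by omega
        have e2 : 2 * j / 2 = j := by omega
        dsimp only
        rw [e1, e2]
      rwa [e] at h3
    · dsimp only at h1
      omega
  ver := by
    intro i j h
    rcases h with ⟨h1, h2, h3⟩ | ⟨h1, h2, h3⟩ | ⟨h1, h2, h3⟩
    · dsimp only at h2
      omega
    · dsimp only at h1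
      omega
    · have e : H426.red N (2 * i, 2 * j + 1) = H103.pr N i j := by
        unfold H426.red H103.pr
        have e1 : 2 * i / 2 = i := by omega
        have e2 : (2 * j + 1) / 2 = j := by omega
        dsimp only
        rw [e1, e2]
      rwa [e] at h3
  face := by
    intro i j h
    rcases h with ⟨h1, h2, h3⟩ | ⟨h1, h2, h3⟩ | ⟨h1, h2, h3⟩
    · dsimp only at h1
      omega
    · dsimp only at h2
      omega
    · dsimp only at h1
      omega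

/-- the annulus event of the lift gives the event `OT` of mass `0` -/
theorem ann_le_PO {N : ℕ} [NeZero N] {b : ℝ} {ξ : ℕ} (hb : 0 ≤ b) (hb' : 0 < b) (hξ : 0 < ξ)
    (p q : ℤ) {r : ℕ} (hr : 1 ≤ r) :
    (H426.ppT N b ξ hb' hξ).p (Ann p q r) ≤ Spec.PO N b ξ hb 0 r 0 (H103.pr N p q) := by
  rw [H426.ppT_p]
  unfold H426.pQ Spec.PO H426.eQ
  refine ENNReal.toReal_mono ?_ (ENNReal.div_le_div_right ?_ _)
  · exact ne_top_of_le_ne_top ENNReal.one_ne_top
      (ENNReal.div_le_of_le_mul (by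
        rw [one_mul]
        exact H576.Ex_mono fun _ _ _ => H576.ind_le_one _))
  · refine H576.Ex_mono fun x om _ => H576.ind_mono fun hA => ?_
    exact H103.oev_of_ann (liftS _ _) hr hA

theorem pr_surj {N : ℕ} [NeZero N] (x0 : Spec.V N) : ∃ p q : ℤ, H103.pr N p q = x0 := by
  refine ⟨(x0.1.val : ℤ), (x0.2.val : ℤ), ?_⟩
  unfold H103.pr
  ext
  · simp
  · simp

/-- **row R9** -/
theorem circ {b1 b2 a : ℝ} (hb1 : 0 < b1) (hA : ArmTor b1 b2 a) (hE : EdgeTor b1 b2) :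
    H58.Circ b1 b2 a := by
  obtain ⟨p1, hp1, A₁, hA⟩ := hA
  obtain ⟨c1, hc1, X1, hE⟩ := hE
  obtain ⟨c, hc, hR⟩ := RSW.H574.rsw_top_out p1 c1 hp1 hc1
  refine ⟨c, hc, max A₁ 1, fun A hAA => ?_⟩
  obtain ⟨W₀, hA⟩ := hA A ((le_max_left _ _).trans hAA)
  have hA1 : 1 ≤ A := (le_max_right _ _).trans hAA
  refine ⟨W₀, fun W hW => ?_⟩
  obtain ⟨ys, X, hys, hA⟩ := hA W hW
  refine ⟨ys, max X (max X1 (max A 1)), hys, ?_⟩
  intro N _ b hb ξ y hrng x0
  have hbp : 0 < b := hb1.trans_le hrng.hb1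
  have hX := hrng.hX
  have hX0 : X ≤ ξ := (le_max_left _ _).trans hX
  have hX1 : X1 ≤ ξ := (le_max_left _ _).trans ((le_max_right _ _).trans hX)
  have hXA : A ≤ ξ := (le_max_left _ _).trans ((le_max_right _ _).trans
    ((le_max_right _ _).trans hX))
  have hξ : 0 < ξ := by omega
  have hr1 : 1 ≤ ξ / A := (Nat.one_le_div_iff (by omega)).2 hXA
  have hrng' : Spec.Rng b1 b2 a W ys X N b ξ y :=
    { hrng with
      hX := hX0
      hK := (Nat.mul_le_mul_right _ (le_max_left _ _)).trans hrng.hK }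
  have hEd := hE N b hbp ξ hξ hrng.hb1 hrng.hb2 hX1
    ((Nat.mul_le_mul_right _ ((le_max_left _ _).trans (le_max_right _ _))).trans hrng.hK)
  obtain ⟨p, q, hpq⟩ := pr_surj x0
  have h1 := hR (H426.ppT N b ξ hbp hξ) ((ξ / A : ℕ) : ℤ) (by exact_mod_cast hr1) hEd
    (fun t ht1 ht2 => hA N b hbp ξ hξ y hrng' t (by omega) ht1 ht2)
  have h2 := (h1.2 p q).trans (ann_le_PO (N := N) hb hbp hξ p q hr1)
  rw [hpq] at h2
  exact h2

end Vale.Agent.P159.TM.H574
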