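import Vale.Agent.P159.TM.H574.Circ
import Vale.Agent.P159.TM.H9.Top

/-!
# P159, T1, row R9, second form: no edge hypothesis

From helper9's window theorem: the free arms at the scales `ξ / (K A) ≤ t ≤ ξ / A` with `K = 40000`
are enough.
-/

open scoped ENNReal
open Finset

namespace Vale.Agent.P159.TM.H574

open Vale.Agent.P145.FB
open Vale.Agent.P159.TM.H459

/-- free arms of the two-copy torus law at the scales `ξ / (K A) ≤ t ≤ ξ / A`, with a probability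
chosen before `A` -/
def ArmTorK (K : ℤ) (b1 b2 a : ℝ) : Prop :=
  ∃ p1 : ℝ, 0 < p1 ∧ ∃ A₁ : ℕ, ∀ A : ℕ, A₁ ≤ A → ∃ W₀ : ℝ, ∀ W : ℝ, W₀ ≤ W → ∃ ys : ℝ,
    ∃ X : ℕ, 0 < ys ∧ ∀ (N : ℕ) [NeZero N] (b : ℝ) (hb : 0 < b) (ξ : ℕ) (hξ : 0 < ξ) (y : ℝ),
      Spec.Rng b1 b2 a W ys X N b ξ y → ∀ t : ℤ, 1 ≤ t → ((ξ / A : ℕ) : ℤ) ≤ K * t →
        t ≤ ((ξ / A : ℕ) : ℤ) → p1 ≤ (H426.ppT N b ξ hb hξ).p (H121.Out t)

theorem ArmTorK.mono {K K' : ℤ} {b1 b2 a : ℝ} (h : K' ≤ K) (hA : ArmTorK K b1 b2 a) :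
    ArmTorK K' b1 b2 a := by
  obtain ⟨p1, hp1, A₁, hA⟩ := hA
  refine ⟨p1, hp1, A₁, fun A hAA => ?_⟩
  obtain ⟨W₀, hA⟩ := hA A hAA
  refine ⟨W₀, fun W hW => ?_⟩
  obtain ⟨ys, X, hys, hA⟩ := hA W hW
  refine ⟨ys, X, hys, ?_⟩
  intro N _ b hb ξ hξ y hr t ht1 ht2 ht3
  exact hA N b hb ξ hξ y hr t ht1 (ht2.trans (mul_le_mul_of_nonneg_right h (by omega))) ht3

theorem armTor_of {K : ℤ} {b1 b2 a : ℝ} (h : 20 ≤ K) (hA : ArmTorK K b1 b2 a) :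
    ArmTor b1 b2 a := ArmTorK.mono h hA

/-- **row R9 without an edge hypothesis** -/
theorem circ9 {b1 b2 a : ℝ} (hb1 : 0 < b1) (hA : ArmTorK 40000 b1 b2 a) :
    H58.Circ b1 b2 a := by
  obtain ⟨p1, hp1, A₁, hA⟩ := hA
  obtain ⟨c, hc, hR⟩ := H9.rsw_top (p1 := p1 / 4) (by positivity)
  refine ⟨c, hc, 2 * A₁ + 2, fun A hAA => ?_⟩
  obtain ⟨A', hA'⟩ : ∃ A' : ℕ, A' = A / 2 := ⟨_, rfl⟩
  obtain ⟨W₀, hA⟩ := hA A' (by omega)
  refine ⟨W₀, fun W hW => ?_⟩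
  obtain ⟨ys, X, hys, hA⟩ := hA W hW
  refine ⟨ys, max X (10000 * A), hys, ?_⟩
  intro N _ b hb ξ y hrng x0
  have hbp : 0 < b := hb1.trans_le hrng.hb1
  have hX := hrng.hX
  have hX0 : X ≤ ξ := (le_max_left _ _).trans hX
  have hXA : 10000 * A ≤ ξ := (le_max_right _ _).trans hX
  have hA0 : 0 < A := by omega
  have hA0' : 0 < A' := by omega
  have hξ : 0 < ξ := by omega
  obtain ⟨m, hm⟩ : ∃ m : ℕ, m = ξ / A := ⟨_, rfl⟩
  have hm1 : 10000 ≤ m := by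
    rw [hm]
    exact (Nat.le_div_iff_mul_le hA0).2 hXA
  have hn1 : 2 * m ≤ ξ / A' := by
    rw [Nat.le_div_iff_mul_le hA0', hm]
    calc 2 * (ξ / A) * A' = ξ / A * (2 * A') := by ring
      _ ≤ ξ / A * A := Nat.mul_le_mul_left _ (by omega)
      _ ≤ ξ := Nat.div_mul_le_self _ _
  have hn2 : ξ / A' ≤ 6 * m := by
    apply Nat.div_le_of_le_mul
    have h1 : ξ < A * (m + 1) := by
      rw [hm]
      exact Nat.lt_mul_div_succ ξ hA0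
    have h2 : A * (m + 1) ≤ (3 * A') * (2 * m) := Nat.mul_le_mul (by omega) (by omega)
    calc ξ ≤ A * (m + 1) := h1.le
      _ ≤ (3 * A') * (2 * m) := h2
      _ = A' * (6 * m) := by ring
  have hrng' : Spec.Rng b1 b2 a W ys X N b ξ y :=
    { hrng with
      hX := hX0
      hK := (Nat.mul_le_mul_right _ (le_max_left _ _)).trans hrng.hK }
  obtain ⟨p, q, hpq⟩ := pr_surj x0
  have h1 := hR (H426.ppT N b ξ hbp hξ) (m : ℤ) (by exact_mod_cast hm1) (fun s hs1 hs2 => by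
    have g1 : ((2 * m : ℕ) : ℤ) ≤ ((ξ / A' : ℕ) : ℤ) := by exact_mod_cast hn1
    have g2 : ((ξ / A' : ℕ) : ℤ) ≤ ((6 * m : ℕ) : ℤ) := by exact_mod_cast hn2
    push_cast at g1 g2
    exact H121.easy_of_out _ (by omega)
      (hA N b hbp ξ hξ y hrng' s (by omega) (by push_cast; omega) (by push_cast; omega)))
  have h2 := (h1.2 p q).trans (ann_le_PO (N := N) hb hbp hξ p q (by omega))
  rw [hpq, hm] at h2
  exact h2

end Vale.Agent.P159.TM.H574
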