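import Vale.Agent.P159.TM.H574.Geo

/-!
Comparison steps of row I574: (3a) dropping the masses and cutting out a square raises the second
moments of neutral functionals on the square, (3b) lower bound by pinning and `e^{-u} ≥ 1 - u`.
-/

open Filter Topology

namespace Vale.Agent.P159.TM.H574

open Vale.Agent.P159.TM.H22 (SG Gle lin)
open Vale.Agent.P159.TM.SpecI
open Vale.Agent.P159.H353 (wI wI_nonneg wI_neg wI_zero_pos)
open Finset

/-! ### product formula along an idempotent homomorphism -/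

section fib

variable {H : Type} [AddCommGroup H]

/-- splitting along an idempotent -/
def fibE (π : H →+ H) (hπ : ∀ h, π (π h) = π h) : H ≃ {g // π g = g} × {k // π k = 0} where
  toFun h := (⟨π h, hπ h⟩, ⟨h - π h, by rw [map_sub, hπ, sub_self]⟩)
  invFun x := x.1.1 + x.2.1
  left_inv h := by simp
  right_inv x := by
    obtain ⟨⟨g, hg⟩, ⟨k, hk⟩⟩ := x
    refine Prod.ext (Subtype.ext ?_) (Subtype.ext ?_)
    · simp [hg, hk]
    · simp [hg, hk]

lemma prod_fib (π : H →+ H) (hπ : ∀ h, π (π h) = π h) {a u : H → ℝ}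
    (ha : Summable fun g : {g // π g = g} => a g) (hu : Summable fun k : {k // π k = 0} => u k) :
    ∑' h, a (π h) * u (h - π h) =
      (∑' g : {g // π g = g}, a g) * ∑' k : {k // π k = 0}, u k := by
  rw [tsum_mul_tsum_of_summable_norm ha.norm hu.norm, ← (fibE π hπ).tsum_eq]
  rfl

end fib

section cmp

variable {n : ℕ} [NeZero n]

/-- restriction to a square, normalised at its corner -/
def rst (p : ℕ × ℕ) (s : ℕ) : (V n → ℤ) →+ (V n → ℤ) where
  toFun h x := if x ∈ bx p s then h x - h (cnr p) else 0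
  map_zero' := by funext x; simp
  map_add' h k := by
    funext x
    simp only [Pi.add_apply]
    split_ifs <;> ring

lemma rst_apply (p : ℕ × ℕ) (s : ℕ) (h : V n → ℤ) (x : V n) :
    rst p s h x = if x ∈ bx p s then h x - h (cnr p) else 0 := rfl

lemma cnr_mem {p : ℕ × ℕ} {s : ℕ} (h1 : p.1 + s ≤ n) (h2 : p.2 + s ≤ n) (hs : 1 ≤ s) :
    (cnr p : V n) ∈ bx p s := by
  have : (cnr p : V n) = pt p.1 p.2 := rfl
  rw [this, pt_mem_bx (by omega) (by omega)]
  omega

lemma rst_cnr {p : ℕ × ℕ} {s : ℕ} (h : V n → ℤ) : rst p s h (cnr p) = 0 := by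
  rw [rst_apply]
  split_ifs <;> simp

lemma rst_rst (p : ℕ × ℕ) (s : ℕ) (h : V n → ℤ) : rst p s (rst p s h) = rst p s h := by
  funext x
  rw [rst_apply (h := rst p s h), rst_cnr, sub_zero]
  by_cases hx : x ∈ bx p s
  · rw [if_pos hx]
  · rw [if_neg hx, rst_apply, if_neg hx]

lemma rst_eq_iff {p : ℕ × ℕ} {s : ℕ} (h1 : p.1 + s ≤ n) (h2 : p.2 + s ≤ n) (hs : 1 ≤ s)
    (g : V n → ℤ) : rst p s g = g ↔ ∀ x ∈ (bx p s)ᶜ ∪ {cnr p}, g x = 0 := by
  constructor
  · intro hg x hx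
    rw [mem_union, mem_compl, mem_singleton] at hx
    rw [← hg]
    rcases hx with hx | hx
    · rw [rst_apply, if_neg hx]
    · rw [hx, rst_cnr]
  · intro hg
    funext x
    rw [rst_apply, hg (cnr p) (mem_union_right _ (mem_singleton_self _)), sub_zero]
    split_ifs with hx
    · rfl
    · exact (hg x (mem_union_left _ (mem_compl.2 hx))).symm

/-- neutral functionals on the square do not see the normalisation -/
lemma pr_rst {p : ℕ × ℕ} {s : ℕ} {g : V n → ℝ} (hg : ∑ x, g x = 0)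
    (hs : ∀ x, x ∉ bx p s → g x = 0) (h : V n → ℤ) : pr g (rst p s h) = pr g h := by
  unfold pr
  have e : ∀ x, g x * ((rst p s h x : ℤ) : ℝ) = g x * (h x : ℝ) - g x * (h (cnr p) : ℝ) := by
    intro x
    rw [rst_apply]
    split_ifs with hx
    · push_cast; ring
    · rw [hs x hx]; ring
  rw [sum_congr rfl fun x _ => e x, sum_sub_distrib, ← sum_mul, hg]
  ring

lemma mass_pos_eq {p : ℕ × ℕ} {s : ℕ} (h1 : p.1 + s ≤ n) (h2 : p.2 + s ≤ n) (hs : 1 ≤ s)
    {b : ℝ} (hb : 0 ≤ b) {l : ℝ} (hl : 0 < l) {g : V n → ℝ} (hg : ∑ x, g x = 0)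
    (hsu : ∀ x, x ∉ bx p s → g x = 0) :
    ex b (eb p s) ∅ (fun h => l * ∑ x ∈ (bx p s)ᶜ ∪ {cnr p}, (h x : ℝ) ^ 2)
        (fun h => pr g h ^ 2) =
      ex b (eb p s) ((bx p s)ᶜ ∪ {cnr p}) (fun _ => 0) (fun h => pr g h ^ 2) := by
  classical
  set Y : Finset (V n) := (bx p s)ᶜ ∪ {cnr p} with hY
  set a : (V n → ℤ) → ℝ := fun h => ∏ e ∈ eb p s, wI b (h (tgt e) - h e.1) with ha
  set u : (V n → ℤ) → ℝ := fun h => Real.exp (-(l * ∑ x ∈ Y, (h x : ℝ) ^ 2) / 2) with hu
  set π : (V n → ℤ) →+ (V n → ℤ) := rst p s with hπ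
  have hππ : ∀ h, π (π h) = π h := fun h => rst_rst p s h
  -- weights
  have w1 : ∀ h, wt b (eb p s) ∅ (fun h => l * ∑ x ∈ Y, (h x : ℝ) ^ 2) h =
      a (π h) * u (h - π h) := by
    intro h
    unfold wt
    rw [if_pos (by simp), one_mul]
    congr 1
    · refine prod_congr rfl fun e he => ?_
      unfold eb at he
      rw [mem_filter] at he
      rw [hπ, rst_apply, rst_apply, if_pos he.2.1, if_pos he.2.2]
      congr 1
      ring
    · rw [hu]
      simp only
      congr 4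
      refine sum_congr rfl fun x hx => ?_
      have : π h x = 0 := (rst_eq_iff h1 h2 hs (π h)).1 (hππ h) x hx
      rw [Pi.sub_apply, this, sub_zero]
  have w2 : ∀ h, wt b (eb p s) Y (fun _ => 0) h =
      Set.indicator {g : V n → ℤ | π g = g} a h := by
    intro h
    unfold wt Set.indicator
    by_cases h3 : ∀ x ∈ Y, h x = 0
    · have h4 : π h = h := (rst_eq_iff h1 h2 hs h).2 h3
      rw [if_pos h3, if_pos (by exact h4)]
      simp [ha]
    · have h4 : ¬ π h = h := fun h5 => h3 ((rst_eq_iff h1 h2 hs h).1 h5)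
      rw [if_neg h3, if_neg (by exact h4)]
      simp
  -- summability
  have sgY : SG (wt b (eb p s) Y (fun _ => 0)) :=
    sg_wt hb (fun _ => le_rfl) (fun _ => rfl) (coe_sq h1 h2 _)
  have sg0 : SG (wt b (eb p s) ∅ (fun h => l * ∑ x ∈ Y, (h x : ℝ) ^ 2)) := by
    refine sg_wt hb (fun h => by positivity) (fun h => by simp) (coe_lam h1 h2 hl)
  have gF : ∀ F : (V n → ℤ) → ℝ, H22.Gr F → Summable fun g : {g // π g = g} => a g * F g := by
    intro F hF
    have h3 := sgY.sum hF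
    have h4 := h3.comp_injective (i := fun g : {g // π g = g} => (g : V n → ℤ))
      Subtype.val_injective
    refine h4.congr fun g => ?_
    simp only [Function.comp]
    rw [w2, Set.indicator_of_mem (by exact g.2)]
  have hku : ∀ k : {k // π k = 0}, wt b (eb p s) ∅ (fun h => l * ∑ x ∈ Y, (h x : ℝ) ^ 2) k =
      a 0 * u k := fun k => by rw [w1, k.2, sub_zero]
  have a0 : 0 < a 0 := by
    rw [ha]
    refine prod_pos fun e _ => ?_
    simpa using wI_zero_pos hb
  have su : Summable fun k : {k // π k = 0} => u k := by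
    have h3 := sg0.sum (H22.Gr.const (1 : ℝ))
    have h4 := h3.comp_injective (i := fun g : {k // π k = 0} => (g : V n → ℤ))
      Subtype.val_injective
    have h5 := h4.mul_left (a 0)⁻¹
    refine h5.congr fun k => ?_
    simp only [Function.comp]
    rw [hku, mul_one, ← mul_assoc, inv_mul_cancel₀ a0.ne', one_mul]
  have hU : 0 < ∑' k : {k // π k = 0}, u k := by
    refine lt_of_lt_of_le (Real.exp_pos _) (su.le_tsum ⟨0, map_zero π⟩ fun k _ =>
      (Real.exp_pos _).le)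
  -- sums
  have key : ∀ F : (V n → ℤ) → ℝ, H22.Gr F → (∀ h, F (π h) = F h) →
      H22.MM (wt b (eb p s) ∅ (fun h => l * ∑ x ∈ Y, (h x : ℝ) ^ 2)) F =
        H22.MM (wt b (eb p s) Y (fun _ => 0)) F * ∑' k : {k // π k = 0}, u k := by
    intro F hF hFπ
    have h3 := prod_fib π hππ (a := fun g => a g * F g) (u := u) (gF F hF) su
    have h4 : H22.MM (wt b (eb p s) Y (fun _ => 0)) F =
        ∑' g : {g // π g = g}, a g * F g := by
      unfold H22.MM
      have h5 := tsum_subtype {g : V n → ℤ | π g = g} fun g => a g * F g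
      rw [show (∑' g : {g // π g = g}, a g * F g) =
        ∑' g : ({g : V n → ℤ | π g = g} : Set (V n → ℤ)), a g * F g from rfl, h5]
      refine tsum_congr fun h => ?_
      rw [w2]
      unfold Set.indicator
      split_ifs <;> ring
    rw [h4, ← h3]
    unfold H22.MM
    refine tsum_congr fun h => ?_
    rw [w1, hFπ]
    ring
  have k1 := key (fun h => pr g h ^ 2) (gr_sq g) fun h => by
    rw [hπ, pr_rst hg hsu]
  have k2 := key (fun _ => 1) (H22.Gr.const 1) fun _ => rfl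
  rw [ex_eq, ex_eq, k1, k2]
  have := MM_one_pos hb sgY
  field_simp

lemma eb_sub (p : ℕ × ℕ) (s : ℕ) : (eb p s : Finset (V n × Bool)) ⊆ inn n := filter_subset _ _

/-- **(3a)** upper bound: cut out a square and drop the mass -/
theorem upper_gen {b : ℝ} (hb : 0 ≤ b) {M : (V n → ℤ) → ℝ} (hM : SQ M) (hc : Coe (inn n) ∅ M)
    {p : ℕ × ℕ} {s : ℕ} (h1 : p.1 + s ≤ n) (h2 : p.2 + s ≤ n) (hs : 1 ≤ s) {g : V n → ℝ}
    (hg : ∑ x, g x = 0) (hsu : ∀ x, x ∉ bx p s → g x = 0) :
    ex b (inn n) ∅ M (fun h => pr g h ^ 2) ≤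
      ex b (eb p s) ((bx p s)ᶜ ∪ {cnr p}) (fun _ => 0) (fun h => pr g h ^ 2) := by
  classical
  set Y : Finset (V n) := (bx p s)ᶜ ∪ {cnr p} with hY
  set R : (V n → ℤ) → ℝ := fun h => ∑ x ∈ Y, (h x : ℝ) ^ 2 with hR
  have sqR : SQ R := by
    refine (SQ.sum (U := V n) Y (v := fun _ => 1) (fun _ _ => zero_le_one)
      (fun x => Pi.single x 1)).congr fun h => ?_
    rw [hR]
    refine sum_congr rfl fun x _ => ?_
    unfold lin
    rw [one_mul]
    congr 1
    simp [Pi.single_apply]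
  have hwM : SG (wt b (inn n) ∅ M) := sg_wt hb hM.nonneg hM.even hc
  have hle : ∀ l : ℝ, 0 < l → ex b (inn n) ∅ (fun h => l * R h + M h) (fun h => pr g h ^ 2) ≤
      ex b (eb p s) Y (fun _ => 0) (fun h => pr g h ^ 2) := by
    intro l hl
    rw [← mass_pos_eq h1 h2 hs hb hl hg hsu]
    exact ex_mono hb (eb_sub p s) subset_rfl (sqR.smul hl.le) hM (coe_lam h1 h2 hl) (inc_sq g)
  have hw : ∀ (l : ℝ) (h : V n → ℤ), wt b (inn n) ∅ (fun h => l * R h + M h) h =
      wt b (inn n) ∅ M h * Real.exp (-(l * (R h / 2))) := by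
    intro l h
    unfold wt
    rw [show -(l * R h + M h) / 2 = -(M h) / 2 + -(l * (R h / 2)) by ring, Real.exp_add]
    ring
  have hlim : ∀ F : (V n → ℤ) → ℝ, H22.Gr F → Tendsto (fun l : ℝ =>
      H22.MM (wt b (inn n) ∅ (fun h => l * R h + M h)) F) (𝓝[>] 0)
      (𝓝 (H22.MM (wt b (inn n) ∅ M) F)) := by
    intro F hF
    have h3 := tendsto_exp0 (a := fun h => wt b (inn n) ∅ M h * F h) (b := fun h => R h / 2)
      (fun h => by rw [hR]; positivity) (hwM.sabs hF)
    refine h3.congr fun l => ?_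
    unfold H22.MM
    exact tsum_congr fun h => by rw [hw]; ring
  have h4 := (hlim _ (gr_sq g)).div (hlim _ (H22.Gr.const 1)) (MM_one_pos hb hwM).ne'
  have h5 : Tendsto (fun l : ℝ => ex b (inn n) ∅ (fun h => l * R h + M h) (fun h => pr g h ^ 2))
      (𝓝[>] 0) (𝓝 (ex b (inn n) ∅ M (fun h => pr g h ^ 2))) := by
    rw [ex_eq]
    refine Tendsto.congr (fun l => ?_) h4
    rw [ex_eq]
    rfl
  refine le_of_tendsto h5 ?_
  filter_upwards [self_mem_nhdsWithin] with l hl
  exact hle l hl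

/-- **(3b)** lower bound: pin a set, `e^{-u} ≥ 1 - u` -/
theorem lower_gen {b : ℝ} (hb : 0 ≤ b) {M : (V n → ℤ) → ℝ} (hM : SQ M) (hc : Coe (inn n) ∅ M)
    {X : Finset (V n)} (hX : X.Nonempty) (g : V n → ℝ) :
    ex b (inn n) X (fun _ => 0) (fun h => pr g h ^ 2) -
        1 / 2 * ex b (inn n) X (fun _ => 0) (fun h => pr g h ^ 2 * M h) ≤
      ex b (inn n) ∅ M (fun h => pr g h ^ 2) := by
  classical
  have hm := ex_mono (es := inn n) (es' := inn n) (X := ∅) (X' := X) (Q := M)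
    (R := fun _ => 0) hb subset_rfl (empty_subset X) hM SQ.zero hc (inc_sq g)
  refine le_trans ?_ hm
  simp only [add_zero]
  have sg0 : SG (wt b (inn n) X (fun _ => 0)) :=
    sg_wt hb (fun _ => le_rfl) (fun _ => rfl) (coe_pin hX _)
  have sgM : SG (wt b (inn n) X M) := sg_wt hb hM.nonneg hM.even (coe_pin hX _)
  have hgM : H22.Gr M := by
    obtain ⟨ι, t, v, ρ, hv, he⟩ := hM
    have : ∀ t : Finset ι, H22.Gr fun h : V n → ℤ => ∑ i ∈ t, v i * lin (ρ i) h ^ 2 := by
      intro t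
      induction t using Finset.induction_on with
      | empty => simpa using H22.Gr.const (V := V n) 0
      | insert a t ha ih =>
        have e : (fun h : V n → ℤ => ∑ i ∈ insert a t, v i * lin (ρ i) h ^ 2) =
            fun h => v a * lin (ρ a) h ^ 2 + ∑ i ∈ t, v i * lin (ρ i) h ^ 2 := by
          funext h
          rw [sum_insert ha]
        rw [e]
        exact ((gr_sq (ρ a)).const_mul (v a)).add ih
    have e : M = fun h => ∑ i ∈ t, v i * lin (ρ i) h ^ 2 := funext he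
    rw [e]
    exact this t
  have hw : ∀ h : V n → ℤ, wt b (inn n) X M h =
      wt b (inn n) X (fun _ => 0) h * Real.exp (-(M h / 2)) := by
    intro h
    unfold wt
    rw [neg_zero, zero_div, Real.exp_zero, mul_one, neg_div]
  have gF : H22.Gr fun h : V n → ℤ => pr g h ^ 2 := gr_sq g
  have s1 := sg0.sum gF
  have s2 := sg0.sum (gF.mul hgM)
  have s3 := sgM.sum gF
  have z0 := MM_one_pos hb sg0
  have zM := MM_one_pos hb sgM
  have hZ : H22.MM (wt b (inn n) X M) (fun _ => 1) ≤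
      H22.MM (wt b (inn n) X (fun _ => 0)) fun _ => 1 := by
    refine (sgM.sum (H22.Gr.const (1 : ℝ))).tsum_le_tsum (fun h => ?_)
      (sg0.sum (H22.Gr.const (1 : ℝ)))
    rw [hw, mul_one, mul_one]
    refine mul_le_of_le_one_right (sg0.nonneg h) (Real.exp_le_one_iff.2 ?_)
    have := hM.nonneg h
    linarith
  have hN : H22.MM (wt b (inn n) X (fun _ => 0)) (fun h => pr g h ^ 2) -
      1 / 2 * H22.MM (wt b (inn n) X (fun _ => 0)) (fun h => pr g h ^ 2 * M h) ≤
      H22.MM (wt b (inn n) X M) fun h => pr g h ^ 2 := by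
    unfold H22.MM
    rw [← tsum_mul_left, ← s1.tsum_sub (s2.mul_left (1 / 2))]
    refine (s1.sub (s2.mul_left (1 / 2))).tsum_le_tsum (fun h => ?_) s3
    rw [hw]
    have h3 := Real.add_one_le_exp (-(M h / 2))
    have h4 : 0 ≤ wt b (inn n) X (fun _ => 0) h * pr g h ^ 2 :=
      mul_nonneg (sg0.nonneg h) (sq_nonneg _)
    nlinarith
  have hN0 : 0 ≤ H22.MM (wt b (inn n) X M) fun h => pr g h ^ 2 :=
    tsum_nonneg fun h => mul_nonneg (sgM.nonneg h) (sq_nonneg _)
  rw [ex_eq, ex_eq, ex_eq]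
  calc _ = (H22.MM (wt b (inn n) X (fun _ => 0)) (fun h => pr g h ^ 2) -
        1 / 2 * H22.MM (wt b (inn n) X (fun _ => 0)) (fun h => pr g h ^ 2 * M h)) /
          H22.MM (wt b (inn n) X (fun _ => 0)) (fun _ => 1) := by ring
    _ ≤ H22.MM (wt b (inn n) X M) (fun h => pr g h ^ 2) /
          H22.MM (wt b (inn n) X (fun _ => 0)) (fun _ => 1) := by
        gcongr
    _ ≤ _ := div_le_div_of_nonneg_left hN0 zM hZ

end cmp

/-- (3a) in the letters of `Spec/I.lean` -/
theorem upper_A {b κ : ℝ} (hb : 0 ≤ b) (hκ : 0 < κ) {k j : ℕ} (hj : j ≤ k) {p : ℕ × ℕ} {s : ℕ}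
    (h1 : p.1 + s ≤ 2 ^ k) (h2 : p.2 + s ≤ 2 ^ k) (hs : 1 ≤ s) {g : V (2 ^ k) → ℝ}
    (hg : ∑ x, g x = 0) (hsu : ∀ x, x ∉ bx p s → g x = 0) :
    exA b κ k j (fun h => pr g h ^ 2) ≤
      ex b (eb p s) ((bx p s)ᶜ ∪ {cnr p}) (fun _ => 0) (fun h => pr g h ^ 2) :=
  upper_gen hb (sq_massA κ k j) (coe_massA hκ hj) h1 h2 hs hg hsu

/-- (3b) in the letters of `Spec/I.lean` -/
theorem lower_A {b κ : ℝ} (hb : 0 ≤ b) (hκ : 0 < κ) {k j : ℕ} (hj : j ≤ k)
    {X : Finset (V (2 ^ k))} (hX : X.Nonempty) (g : V (2 ^ k) → ℝ) :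
    ex b (inn (2 ^ k)) X (fun _ => 0) (fun h => pr g h ^ 2) -
        1 / 2 * ex b (inn (2 ^ k)) X (fun _ => 0) (fun h => pr g h ^ 2 * massA κ k j h) ≤
      exA b κ k j (fun h => pr g h ^ 2) :=
  lower_gen hb (sq_massA κ k j) (coe_massA hκ hj) hX g

end Vale.Agent.P159.TM.H574
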