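import Vale.Agent.P159.RSW.ArmAll
import Vale.Agent.P159.RSW.Fin
import Vale.Agent.P159.RSW.Step0
import Vale.Agent.P159.RSW.L4
import Vale.Agent.P159.TM.H121.Out

/-!
# RSW with easy crossings at the top scales only

(885 #18290) The arm at the top scale `n` landing on a gap of side `t` gives the easy crossing at
scale `t`, with a constant which depends only on the near-square crossing at the scale `n`. So the
near-squares of all scales, with one constant, follow from those of the scales in `[n / 20, n]` as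
long as the long crossings of the scales above `t` are rare.
-/

namespace Vale.Agent.P159.RSW

namespace H574

open Vale.Agent.P145.FB

/-- (L2) with separate constants. -/
theorem l2' (P : PP) (p c : ℝ) (B r : ℤ) (h0 : 0 < p) (hc0 : 0 < c)
    (hr : 1 ≤ r) (hB : 2000 * r ≤ B) (hL : p ≤ P.L (B - B / 50) B)
    (harm0 : ARM P c (B / 13) r) (heps : Eps P (B / 13) ≤ p * c ^ 4 / 4000) (hc1 : c ≤ 1) :
    ARM P (p / 5000) B r := by
  by_contra hcon
  have hconW : ¬ ARMW P (p / 5000) B r := fun h => hcon (H935.sym P _ B r (by omega) h)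
  obtain ⟨x, y, hx, hxr, hy, hyr, hp⟩ := harm0
  obtain ⟨s, hs⟩ : ∃ s : ℤ, s = B / 13 := ⟨_, rfl⟩
  obtain ⟨k, hk⟩ : ∃ k : ℤ, k = s / 25 := ⟨_, rfl⟩
  obtain ⟨W, hW⟩ : ∃ W : ℤ, W = B - B / 50 := ⟨_, rfl⟩
  obtain ⟨X, hX⟩ : ∃ X : ℤ, X = W - s := ⟨_, rfl⟩
  rw [← hs] at hxr hyr hp heps
  rw [← hW] at hL
  -- the four families
  have A1 : P.p (fun S => ∃ i : ℕ, i ≤ 399 ∧ BTc X (X + s) (i * k) (i * k + (s + s / 5)) S) ≤
      ((399 : ℕ) + 1) * (p * c ^ 4 / 4000) := by
    refine H935.union_le P (fun i => BTc X (X + s) (i * k) (i * k + (s + s / 5))) ?_ 399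
    intro i
    have e : P.p (BTc X (X + s) (i * k) (i * k + (s + s / 5))) = Eps P s := by
      rw [P.B_eq', Eps]; congr 1 <;> ring
    rw [e]; exact heps
  have A2 : P.p (fun S => ∃ i : ℕ, i ≤ 399 ∧
      Av (G2 s r x y X (i * k)) X (X + s) (i * k) (i * k + Ht s) S) ≤
      ((399 : ℕ) + 1) * (p / 1000) := by
    refine H935.union_le P
      (fun i => Av (G2 s r x y X (i * k)) X (X + s) (i * k) (i * k + Ht s)) ?_ 399
    intro i
    have h2 := l1 P c s r x y X (i * k) hc0.le (by omega) (by omega) hx hxr hy hyr hp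
    have h3 : P.p (Av (G2 s r x y X (i * k)) X (X + s) (i * k) (i * k + Ht s)) * c ^ 4 ≤
        p / 1000 * c ^ 4 := by
      refine h2.trans ?_
      have : p / 1000 * c ^ 4 = 4 * (p * c ^ 4 / 4000) := by ring
      rw [this]
      linarith
    exact le_of_mul_le_mul_right h3 (by positivity)
  have hW' : ∀ t : ℤ, P.p (WArm 0 B 0 B (X + x) (H935.cl B r t) r) ≤ p / 5000 := by
    intro t
    by_contra h
    push Not at h
    refine hconW ⟨X + x, H935.cl B r t, ?_, ?_, ?_, ?_, h.le⟩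
    · unfold H935.cl; omega
    · unfold H935.cl; omega
    · omega
    · omega
  have A3 : P.p (fun S => ∃ i : ℕ, i ≤ 399 ∧
      WArm 0 B 0 B (X + x) (H935.cl B r (i * k + s - y - r - s / 2)) r S) ≤
      ((399 : ℕ) + 1) * (p / 5000) :=
    H935.union_le P
      (fun i => WArm 0 B 0 B (X + x) (H935.cl B r (i * k + s - y - r - s / 2)) r)
      (fun i => hW' _) 399
  have A4 : P.p (fun S => ∃ i : ℕ, i ≤ 399 ∧
      WArm 0 B 0 B (X + x) (H935.cl B r (i * k + s - y - r)) r S) ≤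
      ((399 : ℕ) + 1) * (p / 5000) :=
    H935.union_le P (fun i => WArm 0 B 0 B (X + x) (H935.cl B r (i * k + s - y - r)) r)
      (fun i => hW' _) 399
  have key : P.p (LRc 0 W 0 B) ≤ _ := P.mono _ _
    (fun S hS => H935.det2 B r s k x y W X hr hB hs hk hW hX S hS)
  have key2 := key.trans ((P.or_le _ _).trans (add_le_add (P.or_le _ _) (P.or_le _ _)))
  have hL' : p ≤ P.p (LRc 0 W 0 B) := hL
  have fin := hL'.trans key2
  have b1 : p * c ^ 4 ≤ p := by
    have h4 : c ^ 4 ≤ 1 := pow_le_one₀ hc0.le hc1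
    calc p * c ^ 4 ≤ p * 1 := mul_le_mul_of_nonneg_left h4 h0.le
      _ = p := mul_one _
  push_cast at A1 A2 A3 A4
  linarith

/-- An arm landing on a gap of side at most `2 t` gives the easy crossing at scale `t`. -/
theorem arm_easy (P : PP) {c : ℝ} {B r t : ℤ} (hr : 0 ≤ r) (ht : 1 ≤ t) (hrt : r ≤ 2 * t)
    (hB : 4 * t ≤ B) (h : ARM P c B r) : c / 4 ≤ P.L t (4 * t) := by
  obtain ⟨x, y, hx, hxr, hy, hyr, hp⟩ := h
  refine TM.H121.easy_of_out P ht (hp.trans ?_)
  rw [← p_NArm_shift P 0 B 0 B x y r (-(x + t)) (-(y + t))]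
  refine P.mono _ _ ?_
  rintro S ⟨u, v, huv, hu, hv⟩
  refine ⟨u, v, huv.mono Set.inter_subset_left, ?_, ?_⟩
  · have hu' : u ∈ rc (x + -(x + t)) (x + -(x + t) + r) (y + -(y + t)) (y + -(y + t) + r) := hu
    rw [mem_rc] at hu' ⊢
    omega
  · unfold TM.H121.nrm
    omega

/-- 250's step 0 at one scale. -/
theorem sq_of_easy (P : PP) {p1 c1 : ℝ} (hc1 : 0 < c1) (hc : c1 ≤ P.L 1 0) {t : ℤ} (ht : 1 ≤ t)
    (h1 : p1 ≤ P.L t (4 * t)) : min (p1 / 4000) (c1 ^ 400) ≤ P.L t (t + t / 50) := by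
  rcases lt_or_ge t 100 with hlt | hge
  · refine (min_le_right _ _).trans ?_
    obtain ⟨n, hn⟩ := Int.eq_ofNat_of_zero_le (show 0 ≤ t - 1 by omega)
    have hle1 : c1 ≤ 1 := hc.trans (P.le_one _)
    have e : t = (n : ℤ) + 1 := by omega
    have h1 := L_seg P hc1.le hc n
    have h2 : c1 ^ 400 ≤ c1 ^ (n + 1) := pow_le_pow_of_le_one hc1.le hle1 (by omega)
    have h3 : P.L ((n : ℤ) + 1) 0 ≤ P.L t (t + t / 50) := by
      rw [e]
      exact P.L_mono geo (by omega) le_rfl (by omega)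
    linarith
  · refine (min_le_left _ _).trans ?_
    obtain ⟨k, hk⟩ : ∃ k, k = t / 100 := ⟨_, rfl⟩
    have hk1 : 1 ≤ k := by omega
    have hn : 4 * t < ((800 : ℕ) + 1) * k := by push_cast; omega
    set b := P.L t (t + t / 50) with hb
    have h2 := P.mono (LRc 0 t 0 (4 * t)) (fun S => ∃ i : ℕ, i ≤ 800 ∧
      (LRc 0 t (i * k) (i * k + (t + 2 * k)) S ∨ BTc 0 t ((i + 1) * k) ((i + 1) * k + t) S))
      (fun S hS => dich hk1 (by omega) hn hS)
    have h3 := ex_le P (fun i S => LRc 0 t (i * k) (i * k + (t + 2 * k)) S ∨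
      BTc 0 t ((i + 1) * k) ((i + 1) * k + t) S) (a := 2 * b) 800 (by
        intro i _
        refine (P.or_le _ _).trans ?_
        have a1 : P.p (LRc 0 t (i * k) (i * k + (t + 2 * k))) ≤ b := by
          rw [P.L_eq']
          exact P.L_mono geo (by omega) (by omega) (by omega)
        have a2 : P.p (BTc 0 t ((i + 1) * k) ((i + 1) * k + t)) ≤ b := by
          rw [P.B_eq']
          exact P.L_mono geo (by omega) (by omega) (by omega)
        have a3 : P.p (fun S => LRc 0 t (i * k) (i * k + (t + 2 * k)) S) =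
          P.p (LRc 0 t (i * k) (i * k + (t + 2 * k))) := rfl
        have a4 : P.p (fun S => BTc 0 t ((i + 1) * k) ((i + 1) * k + t) S) =
          P.p (BTc 0 t ((i + 1) * k) ((i + 1) * k + t)) := rfl
        rw [a3, a4]
        linarith)
    have h4 : P.p (LRc 0 t 0 (4 * t)) = P.L t (4 * t) := rfl
    rw [h4] at h2
    have hb0 : 0 ≤ b := P.L_nonneg _ _
    have h5 := h2.trans h3
    push_cast at h5
    linarith

/-- `ArmAll2` with the near-squares only above the gap. -/
theorem armAll (P : PP) (c0 : ℝ) (r N : ℤ) (h0 : 0 < c0) (hr : 1 ≤ r)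
    (hsq : ∀ s, r < s → s ≤ N → c0 ≤ P.L s (s + s / 50))
    (heps : ∀ s, r < s → s ≤ N → Eps P s ≤ (c0 / 5000) ^ 6) :
    ∀ B, 20 * r ≤ B → B ≤ N → ARM P (c0 / 5000) B r := by
  have key : ∀ n : ℕ, ∀ B : ℤ, B ≤ n → 20 * r ≤ B → B ≤ N → ARM P (c0 / 5000) B r := by
    intro n
    induction n with
    | zero =>
      intro B h1 h2' _
      exfalso
      push_cast at h1
      omega
    | succ n ih =>
      intro B hBn hB hBN
      have hW : c0 ≤ P.L (B - B / 50) B := by
        have h4 := hsq (B - B / 50) (by omega) (by omega)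
        refine h4.trans (P.L_mono geo (by omega) le_rfl (by omega))
      rcases lt_or_ge B (2000 * r) with h5 | h5
      · exact H935.l3Stmt2 P c0 B r h0 hr hB h5 hW
      · refine H935.l2Stmt2 P c0 B r h0 (hW.trans (P.le_one _)) hr h5 hW ?_ ?_
        · exact ih (B / 13) (by push_cast at hBn; omega) (by omega) (by omega)
        · exact heps (B / 13) (by omega) (by omega)
  intro B hB hBN
  exact key B.toNat B (by omega) hB hBN

/-- The near-square constant at all scales. -/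
noncomputable def kD (p0 c1 : ℝ) : ℝ := min (p0 / 5000 / 4 / 4000) (c1 ^ 400)

/-- **Healing at the top**: near-squares at all scales down to the last good one. -/
theorem down (P : PP) {p0 c1 : ℝ} (h0 : 0 < p0) (hc1 : 0 < c1) (hc : c1 ≤ P.L 1 0)
    (n R : ℤ) (hR : 1 ≤ R)
    (hwin : ∀ s, n ≤ 20 * s → s ≤ n → p0 ≤ P.L s (s + s / 50))
    (heps : ∀ s, R < s → s ≤ n → Eps P s ≤ (kD p0 c1 / 5000) ^ 6) :
    ∀ t, R ≤ t → t ≤ n → kD p0 c1 ≤ P.L t (t + t / 50) := by
  have hD : 0 < kD p0 c1 := by unfold kD; positivity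
  have hD0 : kD p0 c1 ≤ p0 := by
    have : kD p0 c1 ≤ p0 / 5000 / 4 / 4000 := min_le_left _ _
    linarith
  have key : ∀ m : ℕ, ∀ t : ℤ, n - t ≤ m → R ≤ t → t ≤ n → kD p0 c1 ≤ P.L t (t + t / 50) := by
    intro m
    induction m with
    | zero =>
      intro t h1 h2 h3
      push_cast at h1
      exact hD0.trans (hwin t (by omega) h3)
    | succ m ih =>
      intro t h1 h2 h3
      push_cast at h1
      rcases lt_or_ge n (20 * t) with h4 | h4
      · exact hD0.trans (hwin t h4.le h3)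
      · have hsq : ∀ s, t < s → s ≤ n → kD p0 c1 ≤ P.L s (s + s / 50) :=
          fun s hs1 hs2 => ih s (by omega) (by omega) hs2
        have hW : p0 ≤ P.L (n - n / 50) n := by
          have h4 := hwin (n - n / 50) (by omega) (by omega)
          refine h4.trans (P.L_mono geo (by omega) le_rfl (by omega))
        have hp1 : p0 ≤ 1 := hW.trans (P.le_one _)
        have hA : ARM P (p0 / 5000) n t := by
          rcases lt_or_ge n (2000 * t) with h5 | h5
          · exact H935.l3Stmt2 P p0 n t h0 (by omega) h4 h5 hW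
          · have hA' := armAll P (kD p0 c1) t n hD (by omega) hsq
              (fun s hs1 hs2 => heps s (by omega) hs2) (n / 13) (by omega) (by omega)
            refine l2' P p0 (kD p0 c1 / 5000) n t h0 (by positivity) (by omega) h5 hW hA' ?_
              (by linarith)
            refine (heps (n / 13) (by omega) (by omega)).trans ?_
            have e1 : (kD p0 c1 / 5000) ^ 6 =
                (kD p0 c1 / 5000) ^ 2 * (kD p0 c1 / 5000) ^ 4 := by ring
            have e2 : p0 * (kD p0 c1 / 5000) ^ 4 / 4000 =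
                p0 / 4000 * (kD p0 c1 / 5000) ^ 4 := by ring
            rw [e1, e2]
            refine mul_le_mul_of_nonneg_right ?_ (by positivity)
            have h6 : (kD p0 c1 / 5000) ^ 2 ≤ kD p0 c1 / 5000 * (1 / 5000) := by
              rw [sq]
              exact mul_le_mul_of_nonneg_left (by linarith) (by positivity)
            linarith
        exact sq_of_easy P hc1 hc (by omega)
          (arm_easy P (by omega) (by omega) (by omega) (by omega) hA)
  intro t h1 h2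
  exact key (n - t).toNat t (by omega) h1 h2

/-- **RSW from near-squares at the top scales `[n / 20, n]`.** -/
theorem rsw_sq_top (p0 c1 : ℝ) (h0 : 0 < p0) (hc1 : 0 < c1) :
    ∃ c : ℝ, 0 < c ∧ ∀ (P : PP) (n : ℤ), 1 ≤ n → c1 ≤ P.L 1 0 →
      (∀ s, n ≤ 20 * s → s ≤ n → p0 ≤ P.L s (s + s / 50)) →
      c ≤ P.L (4 * n) n ∧ ∀ p q : ℤ, c ≤ P.p (Ann p q n) := by
  obtain ⟨c0, hc0⟩ : ∃ c0 : ℝ, c0 = kD p0 c1 := ⟨_, rfl⟩
  have hD : 0 < c0 := by rw [hc0]; unfold kD; positivity
  obtain ⟨l1, hl1⟩ : ∃ l1 : ℝ, l1 = c1 ^ 80 := ⟨_, rfl⟩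
  have hl0 : 0 < l1 := by rw [hl1]; positivity
  have hm := kM_pos hD hl0
  have hl := kL_pos hD hl0
  have he := kE_pos hD hl0
  have hm1 : kM c0 l1 ≤ 1 := min_le_left _ _
  obtain ⟨k0, hk0⟩ : ∃ k0 : ℝ, k0 = min (kM c0 l1) l1 := ⟨_, rfl⟩
  have hk : 0 < k0 := by rw [hk0]; exact lt_min hm hl0
  have hk1 : k0 ≤ 1 := by rw [hk0]; exact (min_le_left _ _).trans hm1
  refine ⟨k0 ^ 4, by positivity, fun P n hn hc hwin => ?_⟩
  have key : k0 ≤ P.L (4 * n) n := by
    have hle1 : c1 ≤ 1 := hc.trans (P.le_one _)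
    have hseg : l1 ≤ P.L 80 0 := by
      have h1 := L_seg P hc1.le hc 79
      rw [hl1]
      norm_num at h1
      exact h1
    rcases lt_or_ge n 20 with h20 | h20
    · rw [hk0]
      exact (min_le_right _ _).trans
        (hseg.trans (P.L_mono geo (by omega) (by omega) (by omega)))
    · rw [hk0]
      refine (min_le_left _ _).trans ?_
      have hl80 : l1 ≤ P.L 80 20 :=
        hseg.trans (P.L_mono geo (by omega) le_rfl (by omega))
      obtain ⟨r, hr, hrn, hlast, hall⟩ :=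
        exists_last (fun t => (c0 / 5000) ^ 6 < Eps P t) n h20
      have heps : ∀ s, r < s → s ≤ n → Eps P s ≤ (c0 / 5000) ^ 6 :=
        fun s hs1 hs2 => not_lt.1 (hall s hs1 hs2)
      have hsq : ∀ t, r ≤ t → t ≤ n → c0 ≤ P.L t (t + t / 50) := by
        rw [hc0] at heps ⊢
        exact down P h0 hc1 hc n r (by omega) hwin heps
      have hL := L_last P hD hr (hsq r le_rfl hrn) hl80 hlast
      rcases lt_or_ge n (5000 * r) with hlt | hge
      · exact (min_le_right _ _).trans ((min_le_left _ _).trans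
          (L_near P hD hl hr hrn hlt (hsq r le_rfl hrn) hL))
      · have hA := armAll P c0 r n hD (by omega) (fun s hs1 hs2 => hsq s hs1.le hs2)
          heps (n - 4 * r) (by omega) (by omega)
        have hC : kL c0 l1 ^ 4 ≤ P.p (Ann 0 0 r) := P.Ann_ge 0 0 hl.le hL
        have h6 := l4 P (c0 / 5000) (kL c0 l1 ^ 4) (n - 4 * r) r r (by positivity)
          (by positivity) (by omega) le_rfl (by omega) (by omega) hA hC
        have h7 : kE c0 l1 ≤ Eps P n := by
          refine h6.trans (P.L_mono geo (by omega) (by omega) (by omega))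
        exact (min_le_right _ _).trans ((min_le_right _ _).trans
          (l5core P c0 (kE c0 l1) n hD.le he.le h20 (hsq n hrn le_rfl) h7))
  refine ⟨le_trans ?_ key, fun p q => P.Ann_ge p q hk.le key⟩
  calc k0 ^ 4 ≤ k0 ^ 1 := pow_le_pow_of_le_one hk.le hk1 (by norm_num)
    _ = k0 := pow_one _

/-- **RSW from easy crossings at the top scales `[n / 20, n]`.** -/
theorem rsw_top (p1 c1 : ℝ) (hp1 : 0 < p1) (hc1 : 0 < c1) :
    ∃ c : ℝ, 0 < c ∧ ∀ (P : PP) (n : ℤ), 1 ≤ n → c1 ≤ P.L 1 0 →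
      (∀ s, n ≤ 20 * s → s ≤ n → p1 ≤ P.L s (4 * s)) →
      c ≤ P.L (4 * n) n ∧ ∀ p q : ℤ, c ≤ P.p (Ann p q n) := by
  obtain ⟨c, h0, h⟩ := rsw_sq_top (min (p1 / 4000) (c1 ^ 400)) c1 (by positivity) hc1
  exact ⟨c, h0, fun P n hn hc hE => h P n hn hc
    (fun s hs1 hs2 => sq_of_easy P hc1 hc (by omega) (hE s hs1 hs2))⟩

/-- The same with arms from a box to its translate. -/
theorem rsw_top_tr (p1 c1 : ℝ) (hp1 : 0 < p1) (hc1 : 0 < c1) :
    ∃ c : ℝ, 0 < c ∧ ∀ (P : PP) (n : ℤ), 1 ≤ n → c1 ≤ P.L 1 0 →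
      (∀ t, n ≤ 20 * t → t ≤ n → p1 ≤ P.p (TM.H121.Tr t)) →
      c ≤ P.L (4 * n) n ∧ ∀ p q : ℤ, c ≤ P.p (Ann p q n) := by
  obtain ⟨c, h0, h⟩ := rsw_top (p1 / 4) c1 (by positivity) hc1
  exact ⟨c, h0, fun P n hn hc hE => h P n hn hc
    (fun s hs1 hs2 => TM.H121.easy_of_tr P (by omega) (hE s hs1 hs2))⟩

/-- The same with arms from a box to distance `2 t`. -/
theorem rsw_top_out (p1 c1 : ℝ) (hp1 : 0 < p1) (hc1 : 0 < c1) :
    ∃ c : ℝ, 0 < c ∧ ∀ (P : PP) (n : ℤ), 1 ≤ n → c1 ≤ P.L 1 0 →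
      (∀ t, n ≤ 20 * t → t ≤ n → p1 ≤ P.p (TM.H121.Out t)) →
      c ≤ P.L (4 * n) n ∧ ∀ p q : ℤ, c ≤ P.p (Ann p q n) := by
  obtain ⟨c, h0, h⟩ := rsw_top (p1 / 4) c1 (by positivity) hc1
  exact ⟨c, h0, fun P n hn hc hE => h P n hn hc
    (fun s hs1 hs2 => TM.H121.easy_of_out P (by omega) (hE s hs1 hs2))⟩

end H574

end Vale.Agent.P159.RSW
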