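import Vale.Agent.P159.TM.H574.Wt

/-!
Geometry of the box: paths in squares, coercivity, cell averages as linear functionals, the ANOVA
identity for the mass on cell averages.
-/

open Filter Topology

namespace Vale.Agent.P159.TM.H574

open Vale.Agent.P159.TM.H22 (lin)
open Vale.Agent.P159.TM.SpecI
open Finset

/-! ### points and paths -/

/-- the point with coordinates `i`, `j` -/
def pt {n : ℕ} (i j : ℕ) : V n := ((i : ZMod n), (j : ZMod n))

section geo

variable {n : ℕ} [NeZero n]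

omit [NeZero n] in
lemma pt_val1 {i j : ℕ} (hi : i < n) : (pt i j : V n).1.val = i := ZMod.val_natCast_of_lt hi

omit [NeZero n] in
lemma pt_val2 {i j : ℕ} (hj : j < n) : (pt i j : V n).2.val = j := ZMod.val_natCast_of_lt hj

lemma eq_pt (x : V n) : x = pt x.1.val x.2.val := by
  unfold pt
  rw [ZMod.natCast_zmod_val, ZMod.natCast_zmod_val]

lemma mem_bx {p : ℕ × ℕ} {s : ℕ} {x : V n} : x ∈ bx p s ↔
    p.1 ≤ x.1.val ∧ x.1.val < p.1 + s ∧ p.2 ≤ x.2.val ∧ x.2.val < p.2 + s := by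
  unfold bx
  rw [mem_filter]
  simp

lemma pt_mem_bx {p : ℕ × ℕ} {s i j : ℕ} (hi : i < n) (hj : j < n) :
    (pt i j : V n) ∈ bx p s ↔ p.1 ≤ i ∧ i < p.1 + s ∧ p.2 ≤ j ∧ j < p.2 + s := by
  rw [mem_bx, pt_val1 hi, pt_val2 hj]

lemma bx_full : (bx (0, 0) n : Finset (V n)) = univ := by
  ext x
  rw [mem_bx]
  simp only [zero_le, zero_add, true_and, mem_univ, iff_true]
  exact ⟨ZMod.val_lt _, ZMod.val_lt _⟩

lemma eb_full : (eb (0, 0) n : Finset (V n × Bool)) = inn n := by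
  unfold eb
  rw [bx_full]
  simp

lemma mem_inn_false {x : V n} : (x, false) ∈ inn n ↔ x.1.val + 1 < n := by
  unfold inn
  simp

lemma mem_inn_true {x : V n} : (x, true) ∈ inn n ↔ x.2.val + 1 < n := by
  unfold inn
  simp

omit [NeZero n] in
lemma tgt_false (i j : ℕ) : tgt ((pt i j : V n), false) = pt (i + 1) j := by
  unfold tgt pt
  simp

omit [NeZero n] in
lemma tgt_true (i j : ℕ) : tgt ((pt i j : V n), true) = pt i (j + 1) := by
  unfold tgt pt
  simp

lemma mem_eb_false {p : ℕ × ℕ} {s i j : ℕ} (h1 : p.1 + s ≤ n) (h2 : p.2 + s ≤ n)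
    (hi : p.1 ≤ i) (hi' : i + 1 < p.1 + s) (hj : p.2 ≤ j) (hj' : j < p.2 + s) :
    ((pt i j : V n), false) ∈ eb p s := by
  unfold eb
  rw [mem_filter, mem_inn_false, tgt_false, pt_val1 (by omega), pt_mem_bx (by omega) (by omega),
    pt_mem_bx (by omega) (by omega)]
  omega

lemma mem_eb_true {p : ℕ × ℕ} {s i j : ℕ} (h1 : p.1 + s ≤ n) (h2 : p.2 + s ≤ n)
    (hi : p.1 ≤ i) (hi' : i < p.1 + s) (hj : p.2 ≤ j) (hj' : j + 1 < p.2 + s) :
    ((pt i j : V n), true) ∈ eb p s := by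
  unfold eb
  rw [mem_filter, mem_inn_true, tgt_true, pt_val2 (by omega), pt_mem_bx (by omega) (by omega),
    pt_mem_bx (by omega) (by omega)]
  omega

omit [NeZero n] in
lemma le_Tv {es : Finset (V n × Bool)} {e : V n × Bool} (he : e ∈ es) (h : V n → ℤ) :
    |(h (tgt e) : ℝ) - h e.1| ≤ Tv es h := by
  unfold Tv
  have := single_le_sum (f := fun e : V n × Bool => |((h (tgt e) - h e.1 : ℤ) : ℝ)|)
    (fun _ _ => abs_nonneg _) he
  simpa only [Int.cast_sub] using this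

lemma path1 {p : ℕ × ℕ} {s : ℕ} (h1 : p.1 + s ≤ n) (h2 : p.2 + s ≤ n) (h : V n → ℤ) {i j : ℕ}
    (hi : p.1 ≤ i) (hj : p.2 ≤ j) (hj' : j < p.2 + s) (m : ℕ) (hm : i + m < p.1 + s) :
    |(h (pt (i + m) j) : ℝ) - h (pt i j)| ≤ m * Tv (eb p s) h := by
  induction m with
  | zero => simp
  | succ m ih =>
    have h3 := ih (by omega)
    have h4 := le_Tv (mem_eb_false (n := n) (i := i + m) h1 h2 (by omega) (by omega) hj hj') h
    rw [tgt_false] at h4
    have h5 : (h (pt (i + (m + 1)) j) : ℝ) - h (pt i j) =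
        ((h (pt (i + m + 1) j) : ℝ) - h (pt (i + m) j)) + ((h (pt (i + m) j) : ℝ) - h (pt i j)) := by
      rw [show i + (m + 1) = i + m + 1 by ring]
      ring
    rw [h5]
    refine (abs_add_le _ _).trans ?_
    push_cast
    simp only at h4
    linarith

lemma path2 {p : ℕ × ℕ} {s : ℕ} (h1 : p.1 + s ≤ n) (h2 : p.2 + s ≤ n) (h : V n → ℤ) {i j : ℕ}
    (hi : p.1 ≤ i) (hi' : i < p.1 + s) (hj : p.2 ≤ j) (m : ℕ) (hm : j + m < p.2 + s) :
    |(h (pt i (j + m)) : ℝ) - h (pt i j)| ≤ m * Tv (eb p s) h := by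
  induction m with
  | zero => simp
  | succ m ih =>
    have h3 := ih (by omega)
    have h4 := le_Tv (mem_eb_true (n := n) (j := j + m) h1 h2 hi hi' (by omega) (by omega)) h
    rw [tgt_true] at h4
    have h5 : (h (pt i (j + (m + 1))) : ℝ) - h (pt i j) =
        ((h (pt i (j + m + 1)) : ℝ) - h (pt i (j + m))) + ((h (pt i (j + m)) : ℝ) - h (pt i j)) := by
      rw [show j + (m + 1) = j + m + 1 by ring]
      ring
    rw [h5]
    refine (abs_add_le _ _).trans ?_
    push_cast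
    simp only at h4
    linarith

/-- oscillation in a square -/
lemma osc {p : ℕ × ℕ} {s : ℕ} (h1 : p.1 + s ≤ n) (h2 : p.2 + s ≤ n) (h : V n → ℤ) {x : V n}
    (hx : x ∈ bx p s) : |(h x : ℝ) - h (cnr p)| ≤ 2 * s * Tv (eb p s) h := by
  rw [mem_bx] at hx
  obtain ⟨a1, a2, a3, a4⟩ := hx
  obtain ⟨a, ha⟩ := Nat.exists_eq_add_of_le a1
  obtain ⟨c, hc⟩ := Nat.exists_eq_add_of_le a3
  have h3 := path1 (n := n) h1 h2 h (i := p.1) (j := p.2 + c) le_rfl (by omega) (by omega) a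
    (by omega)
  have h4 := path2 (n := n) h1 h2 h (i := p.1) (j := p.2) le_rfl (by omega) le_rfl c (by omega)
  have h5 : x = pt (p.1 + a) (p.2 + c) := by
    rw [← ha, ← hc]; exact eq_pt x
  have h6 : (cnr p : V n) = pt p.1 p.2 := rfl
  rw [h5, h6]
  have hT := Tv_nonneg (eb p s) h
  have ha' : (a : ℝ) ≤ s := by exact_mod_cast (by omega : a ≤ s)
  have hc' : (c : ℝ) ≤ s := by exact_mod_cast (by omega : c ≤ s)
  have e : (h (pt (p.1 + a) (p.2 + c)) : ℝ) - h (pt p.1 p.2) =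
      ((h (pt (p.1 + a) (p.2 + c)) : ℝ) - h (pt p.1 (p.2 + c))) +
        ((h (pt p.1 (p.2 + c)) : ℝ) - h (pt p.1 p.2)) := by ring
  rw [e]
  refine (abs_add_le _ _).trans ?_
  have := mul_le_mul_of_nonneg_right ha' hT
  have := mul_le_mul_of_nonneg_right hc' hT
  linarith

/-- oscillation in the box -/
lemma osc_inn (h : V n → ℤ) (x : V n) : |(h x : ℝ) - h (cnr (0, 0))| ≤ 2 * n * Tv (inn n) h := by
  have := osc (n := n) (p := (0, 0)) (s := n) (by simp) (by simp) h (x := x)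
    (by rw [bx_full]; exact mem_univ x)
  rwa [eb_full] at this

/-! ### coercivity -/

/-- pinned box -/
lemma coe_pin {X : Finset (V n)} (hX : X.Nonempty) (Q : (V n → ℤ) → ℝ) : Coe (inn n) X Q := by
  obtain ⟨y, hy⟩ := hX
  refine ⟨4 * n, by positivity, fun h hh x => ?_⟩
  have h1 := osc_inn h x
  have h2 := osc_inn h y
  rw [hh y hy] at h2
  have h3 := Real.sqrt_nonneg (Q h)
  have h4 := Tv_nonneg (inn n) h
  have e : (h x : ℝ) = ((h x : ℝ) - h (cnr (0, 0))) - (((0 : ℤ) : ℝ) - h (cnr (0, 0))) := by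
    push_cast
    ring
  rw [e]
  refine (abs_sub _ _).trans ?_
  have h5 : (0 : ℝ) ≤ 4 * n * √(Q h) := by positivity
  nlinarith

/-- square with a pinned corner and pinned exterior -/
lemma coe_sq {p : ℕ × ℕ} {s : ℕ} (h1 : p.1 + s ≤ n) (h2 : p.2 + s ≤ n) (Q : (V n → ℤ) → ℝ) :
    Coe (eb p s) ((bx p s)ᶜ ∪ {cnr p}) Q := by
  refine ⟨2 * s, by positivity, fun h hh x => ?_⟩
  have h3 := Real.sqrt_nonneg (Q h)
  have h4 := Tv_nonneg (eb p s) h
  have h5 : (0 : ℝ) ≤ 2 * s * √(Q h) := by positivity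
  have h7 : (0 : ℝ) ≤ 2 * s * Tv (eb p s) h := by positivity
  by_cases hx : x ∈ bx p s
  · have h6 := osc h1 h2 h hx
    rw [hh (cnr p) (mem_union_right _ (mem_singleton_self _))] at h6
    push_cast at h6
    rw [sub_zero] at h6
    linarith
  · rw [hh x (mem_union_left _ (mem_compl.2 hx))]
    push_cast
    rw [abs_zero]
    linarith

/-- free square, mass `l` on the corner and the exterior -/
lemma coe_lam {p : ℕ × ℕ} {s : ℕ} (h1 : p.1 + s ≤ n) (h2 : p.2 + s ≤ n) {l : ℝ} (hl : 0 < l) :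
    Coe (n := n) (eb p s) ∅ (fun h => l * ∑ x ∈ (bx p s)ᶜ ∪ {cnr p}, (h x : ℝ) ^ 2) := by
  have hsl : 0 < √l := Real.sqrt_pos.2 hl
  refine ⟨2 * s + 1 / √l, by positivity, fun h _ x => ?_⟩
  set S := ∑ x ∈ (bx p s)ᶜ ∪ {cnr p}, (h x : ℝ) ^ 2 with hS
  have h4 := Tv_nonneg (eb p s) h
  have hy : ∀ y : V n, y ∈ (bx p s)ᶜ ∪ {cnr p} → |(h y : ℝ)| ≤ 1 / √l * √(l * S) := by
    intro y hy
    rw [Real.sqrt_mul hl.le]
    have e : 1 / √l * (√l * √S) = √S := by field_simp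
    rw [e, ← Real.sqrt_sq_eq_abs]
    refine Real.sqrt_le_sqrt ?_
    exact single_le_sum (f := fun x => (h x : ℝ) ^ 2) (fun _ _ => sq_nonneg _) hy
  have h3 := Real.sqrt_nonneg (l * S)
  have h5 : (0 : ℝ) ≤ 2 * s * √(l * S) := by positivity
  have h7 : (0 : ℝ) ≤ 2 * s * Tv (eb p s) h := by positivity
  have h8 : (0 : ℝ) ≤ 1 / √l * Tv (eb p s) h := by positivity
  by_cases hx : x ∈ bx p s
  · have h6 := osc h1 h2 h hx
    have h9 := hy (cnr p) (mem_union_right _ (mem_singleton_self _))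
    have e : (h x : ℝ) = ((h x : ℝ) - h (cnr p)) + h (cnr p) := by ring
    rw [e]
    refine (abs_add_le _ _).trans ?_
    nlinarith
  · have h9 := hy x (mem_union_left _ (mem_compl.2 hx))
    nlinarith

/-! ### cell averages -/

/-- the coefficients of a cell average -/
noncomputable def avc (r : ℕ) (c : ℕ × ℕ) (x : V n) : ℝ :=
  (∑ i ∈ range r, ∑ j ∈ range r, if x = pt (c.1 * r + i) (c.2 * r + j) then (1 : ℝ) else 0) /
    (r : ℝ) ^ 2

lemma avg_lin (r : ℕ) (c : ℕ × ℕ) (h : V n → ℤ) : SpecI.avg r c h = lin (avc r c) h := by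
  unfold SpecI.avg lin avc
  simp only [div_mul_eq_mul_div, sum_mul, ite_mul, one_mul, zero_mul]
  rw [← sum_div]
  congr 1
  symm
  rw [sum_comm]
  refine sum_congr rfl fun i _ => ?_
  rw [sum_comm]
  refine sum_congr rfl fun j _ => ?_
  simp [pt]

lemma avc_eq {r : ℕ} {c : ℕ × ℕ} (h1 : (c.1 + 1) * r ≤ n) (h2 : (c.2 + 1) * r ≤ n) (x : V n) :
    avc r c x = if x ∈ bx (c.1 * r, c.2 * r) r then 1 / (r : ℝ) ^ 2 else 0 := by
  have h1' : c.1 * r + r ≤ n := by linarith [add_mul c.1 1 r]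
  have h2' : c.2 * r + r ≤ n := by linarith [add_mul c.2 1 r]
  unfold avc
  by_cases hx : x ∈ bx (c.1 * r, c.2 * r) r
  · rw [if_pos hx]
    congr 1
    rw [mem_bx] at hx
    obtain ⟨a1, a2, a3, a4⟩ := hx
    simp only at a1 a2 a3 a4
    rw [sum_eq_single (x.1.val - c.1 * r), sum_eq_single (x.2.val - c.2 * r)]
    · rw [if_pos]
      rw [show c.1 * r + (x.1.val - c.1 * r) = x.1.val by omega,
        show c.2 * r + (x.2.val - c.2 * r) = x.2.val by omega]
      exact eq_pt x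
    · intro j hj hj2
      rw [if_neg]
      intro h3
      have h4 : x.2.val = c.2 * r + j := by
        rw [mem_range] at hj
        rw [h3]
        exact pt_val2 (by omega)
      omega
    · intro hj
      rw [mem_range] at hj
      omega
    · intro i hi hi2
      refine sum_eq_zero fun j _ => ?_
      rw [if_neg]
      intro h3
      have h4 : x.1.val = c.1 * r + i := by
        rw [mem_range] at hi
        rw [h3]
        exact pt_val1 (by omega)
      omega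
    · intro hi
      rw [mem_range] at hi
      omega
  · rw [if_neg hx, sum_eq_zero, zero_div]
    intro i hi
    refine sum_eq_zero fun j hj => ?_
    rw [if_neg]
    intro h3
    rw [mem_range] at hi hj
    apply hx
    rw [h3, pt_mem_bx (by omega) (by omega)]
    simp only
    omega

/-- the coefficients have sum one -/
lemma sum_avc {r : ℕ} (hr : 1 ≤ r) (c : ℕ × ℕ) : ∑ x : V n, avc r c x = 1 := by
  have h := avg_lin (n := n) r c fun _ => 1
  unfold lin at h
  simp only [Int.cast_one, mul_one] at h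
  rw [← h]
  unfold SpecI.avg
  have : (r : ℝ) ≠ 0 := by exact_mod_cast (by omega : r ≠ 0)
  simp only [Int.cast_one, sum_const, card_range, nsmul_eq_mul, mul_one]
  field_simp

/-- the coefficients of child minus parent -/
noncomputable def dc (q : ℕ) (c : ℕ × ℕ) (x : V n) : ℝ :=
  avc q c x - avc (2 * q) (c.1 / 2, c.2 / 2) x

lemma Dc_lin (q : ℕ) (c : ℕ × ℕ) (h : V n → ℤ) : Dc q c h = lin (dc q c) h := by
  unfold Dc
  rw [avg_lin, avg_lin]
  unfold lin dc
  rw [← sum_sub_distrib]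
  exact sum_congr rfl fun x _ => by ring

lemma sum_dc {q : ℕ} (hq : 1 ≤ q) (c : ℕ × ℕ) : ∑ x : V n, dc q c x = 0 := by
  unfold dc
  rw [sum_sub_distrib, sum_avc hq, sum_avc (by omega), sub_self]

lemma dc_facts {q : ℕ} (hq : 1 ≤ q) {c : ℕ × ℕ} (h1 : (c.1 / 2 + 1) * (2 * q) ≤ n)
    (h2 : (c.2 / 2 + 1) * (2 * q) ≤ n) (x : V n) :
    |dc q c x| ≤ 3 / ((2 * q : ℕ) : ℝ) ^ 2 ∧
      (x ∉ bx (c.1 / 2 * (2 * q), c.2 / 2 * (2 * q)) (2 * q) → dc q c x = 0) := by
  have a1 : c.1 / 2 * 2 ≤ c.1 := Nat.div_mul_le_self _ _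
  have a2 : c.1 ≤ c.1 / 2 * 2 + 1 := by omega
  have b1 : c.2 / 2 * 2 ≤ c.2 := Nat.div_mul_le_self _ _
  have b2 : c.2 ≤ c.2 / 2 * 2 + 1 := by omega
  have l1 : c.1 / 2 * (2 * q) ≤ c.1 * q := by
    calc c.1 / 2 * (2 * q) = c.1 / 2 * 2 * q := by ring
      _ ≤ _ := Nat.mul_le_mul_right q a1
  have l2 : (c.1 + 1) * q ≤ c.1 / 2 * (2 * q) + 2 * q := by
    calc (c.1 + 1) * q ≤ (c.1 / 2 * 2 + 2) * q := Nat.mul_le_mul_right q (by omega)
      _ = _ := by ring
  have l3 : c.2 / 2 * (2 * q) ≤ c.2 * q := by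
    calc c.2 / 2 * (2 * q) = c.2 / 2 * 2 * q := by ring
      _ ≤ _ := Nat.mul_le_mul_right q b1
  have l4 : (c.2 + 1) * q ≤ c.2 / 2 * (2 * q) + 2 * q := by
    calc (c.2 + 1) * q ≤ (c.2 / 2 * 2 + 2) * q := Nat.mul_le_mul_right q (by omega)
      _ = _ := by ring
  have e1 : (c.1 / 2 + 1) * (2 * q) = c.1 / 2 * (2 * q) + 2 * q := by ring
  have e2 : (c.2 / 2 + 1) * (2 * q) = c.2 / 2 * (2 * q) + 2 * q := by ring
  have e3 : (c.1 + 1) * q = c.1 * q + q := by ring
  have e4 : (c.2 + 1) * q = c.2 * q + q := by ring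
  have k1 : (c.1 + 1) * q ≤ n := by omega
  have k2 : (c.2 + 1) * q ≤ n := by omega
  have hq' : (0 : ℝ) < q := by exact_mod_cast hq
  unfold dc
  rw [avc_eq k1 k2, avc_eq (c := (c.1 / 2, c.2 / 2)) h1 h2]
  simp only
  have sub : x ∈ bx (c.1 * q, c.2 * q) q →
      x ∈ bx (c.1 / 2 * (2 * q), c.2 / 2 * (2 * q)) (2 * q) := by
    rw [mem_bx, mem_bx]
    simp only
    intro h3
    omega
  constructor
  · by_cases hx : x ∈ bx (c.1 * q, c.2 * q) q
    · rw [if_pos hx, if_pos (sub hx)]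
      push_cast
      rw [abs_of_nonneg]
      · have : 1 / (q : ℝ) ^ 2 - 1 / (2 * q) ^ 2 = 3 / (2 * q) ^ 2 := by field_simp; norm_num
        rw [this]
      · have : 1 / (q : ℝ) ^ 2 - 1 / (2 * q) ^ 2 = 3 / (2 * q) ^ 2 := by field_simp; norm_num
        rw [this]
        positivity
    · rw [if_neg hx]
      push_cast
      split_ifs
      · rw [zero_sub, abs_neg, abs_of_nonneg (by positivity)]
        gcongr
        norm_num
      · rw [sub_zero, abs_zero]
        positivity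
  · intro hx
    rw [if_neg hx, if_neg (fun h3 => hx (sub h3)), sub_zero]

/-! ### ANOVA -/

omit [NeZero n] in
/-- a cell average is the mean of the averages of its children -/
lemma avg_split {q : ℕ} (hq : 1 ≤ q) (c d : ℕ) (h : V n → ℤ) :
    SpecI.avg (2 * q) (c, d) h = (SpecI.avg q (2 * c, 2 * d) h + SpecI.avg q (2 * c, 2 * d + 1) h +
      (SpecI.avg q (2 * c + 1, 2 * d) h + SpecI.avg q (2 * c + 1, 2 * d + 1) h)) / 4 := by
  have hq' : (q : ℝ) ≠ 0 := by exact_mod_cast (by omega : q ≠ 0)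
  unfold SpecI.avg
  simp only
  rw [two_mul q, sum_range_add]
  simp only [sum_range_add]
  rw [sum_add_distrib, sum_add_distrib]
  have e1 : ∀ i : ℕ, c * (q + q) + i = 2 * c * q + i := fun i => by ring
  have e2 : ∀ i : ℕ, d * (q + q) + i = 2 * d * q + i := fun i => by ring
  have e3 : ∀ i : ℕ, c * (q + q) + (q + i) = (2 * c + 1) * q + i := fun i => by ring
  have e4 : ∀ i : ℕ, d * (q + q) + (q + i) = (2 * d + 1) * q + i := fun i => by ring
  simp only [e3, e4]
  simp only [e1, e2]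
  push_cast
  field_simp
  ring

lemma sum_range_two (m : ℕ) (F : ℕ → ℝ) :
    ∑ x ∈ range (2 * m), F x = ∑ y ∈ range m, (F (2 * y) + F (2 * y + 1)) := by
  induction m with
  | zero => simp
  | succ m ih =>
    rw [show 2 * (m + 1) = 2 * m + 1 + 1 by ring, sum_range_succ, sum_range_succ, ih,
      sum_range_succ]
    ring

end geo

/-- mass added between level `j` and level `j + 1` -/
noncomputable def Qd (κ : ℝ) (k j : ℕ) (h : V (2 ^ k) → ℤ) : ℝ :=
  κ ^ 2 * (∑ c ∈ range (2 ^ (j + 1)) ×ˢ range (2 ^ (j + 1)),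
    Dc (2 ^ (k - (j + 1))) c h ^ 2) / 4 ^ (j + 1)

lemma Qd_nonneg (κ : ℝ) (k j : ℕ) (h : V (2 ^ k) → ℤ) : 0 ≤ Qd κ k j h := by
  unfold Qd
  positivity

/-- **ANOVA** -/
theorem massA_succ (κ : ℝ) {k j : ℕ} (hj : j + 1 ≤ k) (h : V (2 ^ k) → ℤ) :
    massA κ k (j + 1) h = massA κ k j h + Qd κ k j h := by
  have hq : 1 ≤ 2 ^ (k - (j + 1)) := Nat.one_le_two_pow
  have e1 : 2 ^ (k - j) = 2 * 2 ^ (k - (j + 1)) := by
    rw [← pow_succ']
    congr 1
    omega
  unfold massA Qd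
  set q := 2 ^ (k - (j + 1)) with hqd
  have key : ∑ c ∈ range (2 ^ (j + 1)) ×ˢ range (2 ^ (j + 1)), SpecI.avg q c h ^ 2 =
      4 * ∑ c ∈ range (2 ^ j) ×ˢ range (2 ^ j), SpecI.avg (2 ^ (k - j)) c h ^ 2 +
        ∑ c ∈ range (2 ^ (j + 1)) ×ˢ range (2 ^ (j + 1)), Dc q c h ^ 2 := by
    rw [sum_product, sum_product, sum_product, pow_succ', sum_range_two, sum_range_two, mul_sum,
      ← sum_add_distrib]
    refine sum_congr rfl fun c _ => ?_
    rw [sum_range_two, sum_range_two, sum_range_two, sum_range_two, mul_sum,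
      ← sum_add_distrib, ← sum_add_distrib, ← sum_add_distrib]
    refine sum_congr rfl fun d _ => ?_
    unfold Dc
    simp only
    rw [show 2 * c / 2 = c by omega, show 2 * d / 2 = d by omega,
      show (2 * c + 1) / 2 = c by omega, show (2 * d + 1) / 2 = d by omega, e1,
      avg_split hq c d h]
    ring
  have e5 : (4 : ℝ) ^ (j + 1) = 4 ^ j * 4 := pow_succ 4 j
  rw [key, e5]
  field_simp

lemma massA_le {κ : ℝ} {k j : ℕ} (hj : j ≤ k) (h : V (2 ^ k) → ℤ) :
    massA κ k 0 h ≤ massA κ k j h := by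
  induction j with
  | zero => exact le_rfl
  | succ j ih =>
    rw [massA_succ κ hj]
    linarith [ih (by omega), Qd_nonneg κ k j h]

lemma massA_zero (κ : ℝ) (k : ℕ) (h : V (2 ^ k) → ℤ) :
    massA κ k 0 h = κ ^ 2 * SpecI.avg (2 ^ k) (0, 0) h ^ 2 := by
  unfold massA
  simp

/-- the full mass is the mass on the cells of level `k` -/
lemma massA_full (κ : ℝ) (k : ℕ) (h : V (2 ^ k) → ℤ) :
    full (epsK κ k) h = massA κ k k h := by
  unfold massA full epsK
  have e : ∑ c ∈ range (2 ^ k) ×ˢ range (2 ^ k), SpecI.avg (2 ^ (k - k)) c h ^ 2 =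
      ∑ x : V (2 ^ k), (h x : ℝ) ^ 2 := by
    refine sum_nbij' (fun c => pt c.1 c.2) (fun x => (x.1.val, x.2.val)) ?_ ?_ ?_ ?_ ?_
    · intro c _
      exact mem_univ _
    · intro x _
      rw [mem_product, mem_range, mem_range]
      exact ⟨ZMod.val_lt _, ZMod.val_lt _⟩
    · intro c hc
      rw [mem_product, mem_range, mem_range] at hc
      rw [pt_val1 hc.1, pt_val2 hc.2]
    · intro x _
      exact (eq_pt x).symm
    · intro c _
      unfold SpecI.avg pt
      simp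
  rw [e]
  ring

lemma sq_massA (κ : ℝ) (k j : ℕ) : SQ (massA κ k j) := by
  refine (SQ.sum (U := V (2 ^ k)) (range (2 ^ j) ×ˢ range (2 ^ j)) (v := fun _ => κ ^ 2 / 4 ^ j)
    (fun _ _ => by positivity) (fun c => avc (2 ^ (k - j)) c)).congr fun h => ?_
  unfold massA
  rw [mul_sum, sum_div]
  refine sum_congr rfl fun c _ => ?_
  rw [avg_lin]
  ring

lemma sq_Qd (κ : ℝ) (k j : ℕ) : SQ (Qd κ k j) := by
  refine (SQ.sum (U := V (2 ^ k)) (range (2 ^ (j + 1)) ×ˢ range (2 ^ (j + 1)))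
    (v := fun _ => κ ^ 2 / 4 ^ (j + 1)) (fun _ _ => by positivity)
    (fun c => dc (2 ^ (k - (j + 1))) c)).congr fun h => ?_
  unfold Qd
  rw [mul_sum, sum_div]
  refine sum_congr rfl fun c _ => ?_
  rw [Dc_lin]
  ring

/-- coercivity of the free box with the mass on cell averages -/
lemma coe_massA {κ : ℝ} (hκ : 0 < κ) {k j : ℕ} (hj : j ≤ k) :
    Coe (inn (2 ^ k)) ∅ (massA κ k j) := by
  refine Coe.mono (Q := massA κ k 0) (X := ∅) (es := inn (2 ^ k)) ?_ subset_rfl subset_rfl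
    fun h => massA_le hj h
  set n := 2 ^ k with hn
  have hn0 : (0 : ℝ) < n := by rw [hn]; positivity
  refine ⟨4 * n + 1 / κ, by positivity, fun h _ x => ?_⟩
  have hT := Tv_nonneg (inn n) h
  have h1 : √(massA κ k 0 h) = κ * |SpecI.avg n (0, 0) h| := by
    rw [massA_zero, Real.sqrt_mul (by positivity), Real.sqrt_sq hκ.le, Real.sqrt_sq_eq_abs]
  have h2 : |SpecI.avg n (0, 0) h - h (cnr (0, 0))| ≤ 2 * n * Tv (inn n) h := by
    have e : SpecI.avg n (0, 0) h - h (cnr (0, 0)) =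
        (∑ i ∈ range n, ∑ j ∈ range n,
          ((h (pt (0 * n + i) (0 * n + j)) : ℝ) - h (cnr (0, 0)))) / (n : ℝ) ^ 2 := by
      unfold SpecI.avg pt
      simp only [sum_sub_distrib, sum_const, card_range, nsmul_eq_mul]
      field_simp
    rw [e, abs_div, abs_of_pos (show (0 : ℝ) < (n : ℝ) ^ 2 by positivity),
      div_le_iff₀ (by positivity)]
    refine (abs_sum_le_sum_abs _ _).trans ?_
    calc ∑ i ∈ range n, |∑ j ∈ range n, ((h (pt (0 * n + i) (0 * n + j)) : ℝ) - h (cnr (0, 0)))|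
        ≤ ∑ i ∈ range n, ∑ j ∈ range n, 2 * n * Tv (inn n) h :=
          sum_le_sum fun i _ => (abs_sum_le_sum_abs _ _).trans (sum_le_sum fun j _ => osc_inn h _)
      _ = _ := by
          simp only [sum_const, card_range, nsmul_eq_mul]
          ring
  have h3 := osc_inn h x
  rw [h1]
  have e : (h x : ℝ) = ((h x : ℝ) - h (cnr (0, 0))) - (SpecI.avg n (0, 0) h - h (cnr (0, 0))) +
      SpecI.avg n (0, 0) h := by ring
  rw [e]
  refine (abs_add_le _ _).trans ?_
  have h4 := abs_sub ((h x : ℝ) - h (cnr (0, 0))) (SpecI.avg n (0, 0) h - h (cnr (0, 0)))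
  have h5 : 1 / κ * (κ * |SpecI.avg n (0, 0) h|) = |SpecI.avg n (0, 0) h| := by field_simp
  have h6 : 0 ≤ 4 * (n : ℝ) * (κ * |SpecI.avg n (0, 0) h|) := by positivity
  have h7 : 0 ≤ 1 / κ * Tv (inn n) h := by positivity
  nlinarith

end Vale.Agent.P159.TM.H574
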