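import Vale.Agent.P159.TM.H574.UV
import Vale.Agent.P159.TM.H574.Zm

/-!
`IDWI b → ZM b → MUV b`.
-/

open Filter Topology

namespace Vale.Agent.P159.TM.H574

open Vale.Agent.P159.TM.H22 (SG Gle lin)
open Vale.Agent.P159.TM.SpecI
open Finset

section exlem

variable {n : ℕ} [NeZero n] {b : ℝ} {es : Finset (V n × Bool)} {X : Finset (V n)}
  {Q : (V n → ℤ) → ℝ}

lemma ex_le (hb : 0 ≤ b) (hw : SG (wt b es X Q)) {F G : (V n → ℤ) → ℝ} (gF : H22.Gr F)
    (gG : H22.Gr G) (h : ∀ h, (∀ x ∈ X, h x = 0) → F h ≤ G h) :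
    ex b es X Q F ≤ ex b es X Q G := by
  classical
  rw [ex_eq, ex_eq]
  refine div_le_div_of_nonneg_right ?_ (MM_one_pos hb hw).le
  refine (hw.sum gF).tsum_le_tsum (fun x => ?_) (hw.sum gG)
  by_cases hx : ∀ y ∈ X, x y = 0
  · exact mul_le_mul_of_nonneg_left (h x hx) (hw.nonneg x)
  · have : wt b es X Q x = 0 := by
      unfold wt
      rw [if_neg hx, zero_mul, zero_mul]
    rw [this, zero_mul, zero_mul]

omit [NeZero n] in
lemma ex_smul (c : ℝ) (F : (V n → ℤ) → ℝ) :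
    ex b es X Q (fun h => c * F h) = c * ex b es X Q F := by
  unfold ex
  rw [← mul_div_assoc, ← tsum_mul_left]
  congr 1
  exact tsum_congr fun h => by ring

lemma ex_add (hw : SG (wt b es X Q)) {F G : (V n → ℤ) → ℝ} (gF : H22.Gr F) (gG : H22.Gr G) :
    ex b es X Q (fun h => F h + G h) = ex b es X Q F + ex b es X Q G := by
  rw [ex_eq, ex_eq, ex_eq, H22.MM_add hw gF gG, add_div]

lemma gr_sum {ι : Type*} (s : Finset ι) {F : ι → (V n → ℤ) → ℝ} (gF : ∀ i ∈ s, H22.Gr (F i)) :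
    H22.Gr fun h => ∑ i ∈ s, F i h := by
  classical
  induction s using Finset.induction_on with
  | empty => simpa using H22.Gr.const (V := V n) 0
  | insert a t ha ih =>
    have e : (fun h : V n → ℤ => ∑ i ∈ insert a t, F i h) =
        fun h => F a h + ∑ i ∈ t, F i h := by
      funext h
      rw [sum_insert ha]
    rw [e]
    exact (gF a (mem_insert_self a t)).add (ih fun i hi => gF i (mem_insert_of_mem hi))

lemma ex_sum (hw : SG (wt b es X Q)) {ι : Type*} (s : Finset ι) {F : ι → (V n → ℤ) → ℝ}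
    (gF : ∀ i ∈ s, H22.Gr (F i)) :
    ex b es X Q (fun h => ∑ i ∈ s, F i h) = ∑ i ∈ s, ex b es X Q (F i) := by
  simp only [ex_eq]
  rw [← sum_div]
  congr 1
  unfold H22.MM
  rw [← Summable.tsum_finsetSum fun i hi => hw.sum (gF i hi)]
  exact tsum_congr fun h => by rw [mul_sum]

end exlem

/-- the average over a cell outside the support of the heights vanishes -/
lemma avg_eq_zero {n : ℕ} [NeZero n] {q : ℕ} {c : ℕ × ℕ} (h1 : (c.1 + 1) * q ≤ n)
    (h2 : (c.2 + 1) * q ≤ n) {p : ℕ × ℕ} {L : ℕ} {h : V n → ℤ}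
    (hh : ∀ x ∈ (bx p L : Finset (V n))ᶜ, h x = 0)
    (hc : (c.1 + 1) * q ≤ p.1 ∨ p.1 + L ≤ c.1 * q ∨ (c.2 + 1) * q ≤ p.2 ∨ p.2 + L ≤ c.2 * q) :
    SpecI.avg q c h = 0 := by
  unfold SpecI.avg
  rw [sum_eq_zero, zero_div]
  intro i hi
  refine sum_eq_zero fun j hj => ?_
  rw [mem_range] at hi hj
  have e1 : (c.1 + 1) * q = c.1 * q + q := by ring
  have e2 : (c.2 + 1) * q = c.2 * q + q := by ring
  have h3 : h (pt (c.1 * q + i) (c.2 * q + j)) = 0 := by
    refine hh _ (mem_compl.2 fun h4 => ?_)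
    rw [pt_mem_bx (by omega) (by omega)] at h4
    omega
  unfold pt at h3
  rw [h3]
  norm_num

/-- **`MUV b` from `IDWI b` and `ZM b`** -/
theorem muv_of {b : ℝ} (hb : 0 ≤ b) (hI : IDWI b) (hZ : ZM b) : MUV b := by
  classical
  intro κ hκ
  obtain ⟨C₁, c₁, hC₁, hc₁, hI⟩ := hI
  obtain ⟨C₂, hC₂, hZ⟩ := hZ
  refine ⟨9 * C₁ * (2 : ℝ) ^ c₁ + 1107 * C₂ * κ ^ 2, min (c₁ / 3) 1, by positivity,
    lt_min (by positivity) one_pos, ?_⟩
  intro k j hj d hd1 hd2 hd3 hd4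
  set m := 2 ^ (j / 3) with hm
  have hm1 : 1 ≤ m := Nat.one_le_two_pow
  obtain ⟨a1, ha1⟩ := Nat.exists_eq_add_of_le' (show m ≤ d.1 / 2 by omega)
  obtain ⟨a2, ha2⟩ := Nat.exists_eq_add_of_le' (show m ≤ d.2 / 2 by omega)
  set q := 2 ^ (k - (j + 1)) with hq
  have hq1 : 1 ≤ q := Nat.one_le_two_pow
  set r := 2 * q with hr
  have hn : 2 ^ k = 2 ^ j * r := by
    rw [hr, hq, ← pow_succ', ← pow_add]
    congr 1
    omega
  set p : ℕ × ℕ := (a1 * r, a2 * r) with hp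
  have f1 : (a1 + 2 * m + 2) * r ≤ 2 ^ k := by
    rw [hn]; exact Nat.mul_le_mul_right r (by omega)
  have f2 : (a2 + 2 * m + 2) * r ≤ 2 ^ k := by
    rw [hn]; exact Nat.mul_le_mul_right r (by omega)
  have g1 : (a1 + 2 * m + 2) * r = a1 * r + (2 * m + 1) * r + r := by ring
  have g2 : (a2 + 2 * m + 2) * r = a2 * r + (2 * m + 1) * r + r := by ring
  have i1 : 1 * r ≤ a1 * r := Nat.mul_le_mul_right r (by omega)
  have i2 : 1 * r ≤ a2 * r := Nat.mul_le_mul_right r (by omega)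
  set L := (2 * m + 1) * r with hL
  have hmr : m * r + r ≤ L := by
    rw [hL]
    have : (2 * m + 1) * r = m * r + m * r + r := by ring
    omega
  have hP1 : d.1 / 2 * r = a1 * r + m * r := by rw [ha1]; ring
  have hP2 : d.2 / 2 * r = a2 * r + m * r := by rw [ha2]; ring
  -- the functional
  set g : V (2 ^ k) → ℝ := dc q d with hg
  have q1 : (d.1 / 2 + 1) * (2 * q) ≤ 2 ^ k := by
    rw [← hr]
    have : (d.1 / 2 + 1) * r = d.1 / 2 * r + r := by ring
    omega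
  have q2 : (d.2 / 2 + 1) * (2 * q) ≤ 2 ^ k := by
    rw [← hr]
    have : (d.2 / 2 + 1) * r = d.2 / 2 * r + r := by ring
    omega
  have hg0 : ∑ x, g x = 0 := sum_dc hq1 d
  have hgb : ∀ x, |g x| ≤ 3 / (r : ℝ) ^ 2 := fun x => (dc_facts hq1 q1 q2 x).1
  have hgs : ∀ x, x ∉ bx (p.1 + m * r, p.2 + m * r) r → g x = 0 := fun x hx => by
    refine (dc_facts hq1 q1 q2 x).2 ?_
    rw [← hr, hP1, hP2]
    exact hx
  have hgs2 : ∀ x, x ∉ bx p L → g x = 0 := fun x hx => by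
    refine hgs x fun h3 => hx ?_
    rw [mem_bx] at h3 ⊢
    simp only [hp] at h3 ⊢
    omega
  have hDg : ∀ h : V (2 ^ k) → ℤ, Dc q d h = pr g h := fun h => Dc_lin q d h
  simp only [hDg]
  -- the same, divided by three
  set g' : V (2 ^ k) → ℝ := fun x => g x / 3 with hg'
  have hg'0 : ∑ x, g' x = 0 := by
    rw [hg', ← sum_div, hg0, zero_div]
  have hg'b : ∀ x, |g' x| ≤ 1 / (r : ℝ) ^ 2 := fun x => by
    rw [hg']
    simp only
    rw [abs_div, abs_of_pos (show (0 : ℝ) < 3 by norm_num), div_le_iff₀ (by norm_num)]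
    calc |g x| ≤ 3 / (r : ℝ) ^ 2 := hgb x
      _ = _ := by ring
  have hg's : ∀ x, x ∉ bx (p.1 + m * r, p.2 + m * r) r → g' x = 0 := fun x hx => by
    rw [hg']
    simp only
    rw [hgs x hx, zero_div]
  have hpr : ∀ h : V (2 ^ k) → ℤ, pr g h = 3 * pr g' h := fun h => by
    unfold pr
    rw [mul_sum]
    exact sum_congr rfl fun x _ => by rw [hg']; ring
  -- upper and lower bounds
  have up := upper_A (g := g) (p := p) (s := L) hb hκ (show j ≤ k by omega)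
    (by simp only [hp]; omega) (by simp only [hp]; omega) (by omega) hg0 hgs2
  have hX : ((bx p L : Finset (V (2 ^ k)))ᶜ).Nonempty := by
    refine ⟨pt 0 0, mem_compl.2 fun h3 => ?_⟩
    rw [pt_mem_bx (by positivity) (by positivity)] at h3
    simp only [hp] at h3
    omega
  have lo := lower_A (X := (bx p L : Finset (V (2 ^ k)))ᶜ) hb hκ hj hX g
  have idw := hI (2 ^ k) r m p (by omega) hm1 (by simp only [hp]; omega) (by simp only [hp]; omega)
    (by simp only [hp]; omega) (by simp only [hp]; omega) g' hg'0 hg's hg'b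
  rw [← hL] at idw
  have idw2 : ex b (eb p L) ((bx p L)ᶜ ∪ {cnr p}) (fun _ => 0) (fun h => pr g h ^ 2) -
      ex b (inn (2 ^ k)) (bx p L)ᶜ (fun _ => 0) (fun h => pr g h ^ 2) ≤
      9 * (C₁ * (m : ℝ) ^ (-c₁)) := by
    have e : (fun h : V (2 ^ k) → ℤ => pr g h ^ 2) = fun h => 9 * pr g' h ^ 2 := by
      funext h
      rw [hpr]
      ring
    rw [e, ex_smul, ex_smul, ← mul_sub]
    exact mul_le_mul_of_nonneg_left idw (by norm_num)
  -- the mass term
  set w0 := wt b (inn (2 ^ k)) (bx p L)ᶜ (fun _ => 0) with hw0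
  have sg0 : SG (wt b (inn (2 ^ k)) (bx p L)ᶜ (fun _ => 0)) :=
    sg_wt hb (fun _ => le_rfl) (fun _ => rfl) (coe_pin hX _)
  set l : ℝ := 2 * (2 * m + 1) with hl
  have hm1' : (1 : ℝ) ≤ m := by exact_mod_cast hm1
  have hl0 : 0 < l := by rw [hl]; positivity
  set T := Ico (2 * a1) (2 * (a1 + 2 * m + 1)) ×ˢ Ico (2 * a2) (2 * (a2 + 2 * m + 1)) with hT
  have hTc : (T.card : ℝ) = l ^ 2 := by
    rw [hT, card_product, Nat.card_Ico, Nat.card_Ico,
      show 2 * (a1 + 2 * m + 1) - 2 * a1 = 2 * (2 * m + 1) by omega,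
      show 2 * (a2 + 2 * m + 1) - 2 * a2 = 2 * (2 * m + 1) by omega, hl]
    push_cast
    ring
  have hTsub : T ⊆ range (2 ^ (j + 1)) ×ˢ range (2 ^ (j + 1)) := by
    intro c hc
    rw [hT, mem_product, mem_Ico, mem_Ico] at hc
    rw [mem_product, mem_range, mem_range]
    have : 2 ^ (j + 1) = 2 * 2 ^ j := pow_succ' 2 j
    omega
  have hmass : ∀ h : V (2 ^ k) → ℤ, (∀ x ∈ (bx p L : Finset (V (2 ^ k)))ᶜ, h x = 0) →
      massA κ k (j + 1) h = κ ^ 2 / 4 ^ (j + 1) * ∑ c ∈ T, SpecI.avg q c h ^ 2 := by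
    intro h hh
    unfold massA
    rw [← sum_subset hTsub]
    · rw [← hq]
      ring
    · intro c hc hcT
      rw [mem_product, mem_range, mem_range] at hc
      rw [hT, mem_product, mem_Ico, mem_Ico] at hcT
      have hn2 : 2 ^ k = 2 ^ (j + 1) * q := by
        rw [hn, hr, pow_succ]
        ring
      have k1 : (c.1 + 1) * q ≤ 2 ^ k := by
        rw [hn2]; exact Nat.mul_le_mul_right q (by omega)
      have k2 : (c.2 + 1) * q ≤ 2 ^ k := by
        rw [hn2]; exact Nat.mul_le_mul_right q (by omega)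
      rw [← hq, avg_eq_zero k1 k2 hh, zero_pow (by norm_num)]
      have e1 : p.1 = 2 * a1 * q := by simp only [hp, hr]; ring
      have e2 : p.2 = 2 * a2 * q := by simp only [hp, hr]; ring
      have e3 : p.1 + L = 2 * (a1 + 2 * m + 1) * q := by simp only [hp, hL, hr]; ring
      have e4 : p.2 + L = 2 * (a2 + 2 * m + 1) * q := by simp only [hp, hL, hr]; ring
      rw [e3, e4, e1, e2]
      by_cases c1 : 2 * a1 ≤ c.1
      · by_cases c2 : c.1 < 2 * (a1 + 2 * m + 1)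
        · by_cases c3 : 2 * a2 ≤ c.2
          · have c4 : 2 * (a2 + 2 * m + 1) ≤ c.2 := by omega
            exact Or.inr (Or.inr (Or.inr (Nat.mul_le_mul_right q c4)))
          · exact Or.inr (Or.inr (Or.inl (Nat.mul_le_mul_right q (by omega))))
        · exact Or.inr (Or.inl (Nat.mul_le_mul_right q (by omega)))
      · exact Or.inl (Nat.mul_le_mul_right q (by omega))
  have gA : ∀ c : ℕ × ℕ, H22.Gr fun h : V (2 ^ k) → ℤ => SpecI.avg q c h ^ 4 := fun c => by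
    have h3 := (gr_sq (V := V (2 ^ k)) (avc q c)).mul (gr_sq (avc q c))
    simp only [avg_lin]
    refine h3.mono fun h => ?_
    rw [show lin (avc q c) h ^ 4 = lin (avc q c) h ^ 2 * lin (avc q c) h ^ 2 by ring]
  have gP : H22.Gr fun h : V (2 ^ k) → ℤ => pr g h ^ 4 := by
    have h3 := (gr_sq (V := V (2 ^ k)) g).mul (gr_sq g)
    refine h3.mono fun h => ?_
    have : pr g h = lin g h := rfl
    rw [this, show lin g h ^ 4 = lin g h ^ 2 * lin g h ^ 2 by ring]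
  have hterm : ∀ h : V (2 ^ k) → ℤ, (∀ x ∈ (bx p L : Finset (V (2 ^ k)))ᶜ, h x = 0) →
      pr g h ^ 2 * massA κ k (j + 1) h ≤ κ ^ 2 / 4 ^ (j + 1) *
        ∑ c ∈ T, (l / 2 * pr g h ^ 4 + 1 / (2 * l) * SpecI.avg q c h ^ 4) := by
    intro h hh
    rw [hmass h hh, mul_left_comm]
    refine mul_le_mul_of_nonneg_left ?_ (by positivity)
    rw [mul_sum]
    refine sum_le_sum fun c _ => ?_
    have e : l / 2 * pr g h ^ 4 + 1 / (2 * l) * SpecI.avg q c h ^ 4 -
        pr g h ^ 2 * SpecI.avg q c h ^ 2 =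
        1 / (2 * l) * (l * pr g h ^ 2 - SpecI.avg q c h ^ 2) ^ 2 := by
      field_simp
      ring
    have : 0 ≤ 1 / (2 * l) * (l * pr g h ^ 2 - SpecI.avg q c h ^ 2) ^ 2 := by positivity
    linarith
  have hZ' := hZ (2 ^ k) p L (by simp only [hp]; omega) (by simp only [hp]; omega)
    (by simp only [hp]; omega) (by simp only [hp]; omega)
  have hP4 : ex b (inn (2 ^ k)) (bx p L)ᶜ (fun _ => 0) (fun h => pr g h ^ 4) ≤ 81 * C₂ := by
    have h3 := hZ'.1 r (p.1 + m * r, p.2 + m * r) (by omega) (by simp) (by simp)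
      (by simp only; omega) (by simp only; omega) g' hg'0 hg's hg'b
    have e : (fun h : V (2 ^ k) → ℤ => pr g h ^ 4) = fun h => 81 * pr g' h ^ 4 := by
      funext h
      rw [hpr]
      ring
    rw [e, ex_smul]
    exact mul_le_mul_of_nonneg_left h3 (by norm_num)
  have hqL : (L : ℝ) / q = l := by
    have : (q : ℝ) ≠ 0 := by exact_mod_cast (by omega : q ≠ 0)
    rw [hL, hr, hl]
    push_cast
    field_simp
  have hA4 : ∀ c ∈ T, ex b (inn (2 ^ k)) (bx p L)ᶜ (fun _ => 0)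
      (fun h => SpecI.avg q c h ^ 4) ≤ C₂ * l ^ 2 := by
    intro c hc
    rw [hT, mem_product, mem_Ico, mem_Ico] at hc
    have e1 : p.1 = 2 * a1 * q := by simp only [hp, hr]; ring
    have e2 : p.2 = 2 * a2 * q := by simp only [hp, hr]; ring
    have e3 : p.1 + L = 2 * (a1 + 2 * m + 1) * q := by simp only [hp, hL, hr]; ring
    have e4 : p.2 + L = 2 * (a2 + 2 * m + 1) * q := by simp only [hp, hL, hr]; ring
    have h3 := hZ'.2 q c hq1 (by omega) (by rw [e1]; exact Nat.mul_le_mul_right q (by omega))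
      (by rw [e2]; exact Nat.mul_le_mul_right q (by omega))
      (by rw [e3]; exact Nat.mul_le_mul_right q (by omega))
      (by rw [e4]; exact Nat.mul_le_mul_right q (by omega))
    rwa [hqL] at h3
  have gPM : H22.Gr fun h : V (2 ^ k) → ℤ => pr g h ^ 2 * massA κ k (j + 1) h :=
    (gr_sq (V := V (2 ^ k)) g).mul (sq_massA κ k (j + 1)).gr
  have gT : ∀ c ∈ T, H22.Gr fun h : V (2 ^ k) → ℤ =>
      l / 2 * pr g h ^ 4 + 1 / (2 * l) * SpecI.avg q c h ^ 4 := fun c _ =>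
    (gP.const_mul _).add ((gA c).const_mul _)
  have hbig : ex b (inn (2 ^ k)) (bx p L)ᶜ (fun _ => 0)
      (fun h => pr g h ^ 2 * massA κ k (j + 1) h) ≤ κ ^ 2 / 4 ^ (j + 1) * (41 * C₂ * l ^ 3) := by
    refine (ex_le hb sg0 gPM ((gr_sum T gT).const_mul _) hterm).trans ?_
    rw [ex_smul, ex_sum sg0 T gT]
    refine mul_le_mul_of_nonneg_left ?_ (by positivity)
    calc ∑ c ∈ T, ex b (inn (2 ^ k)) (bx p L)ᶜ (fun _ => 0)
          (fun h => l / 2 * pr g h ^ 4 + 1 / (2 * l) * SpecI.avg q c h ^ 4) ≤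
          ∑ _c ∈ T, (l / 2 * (81 * C₂) + 1 / (2 * l) * (C₂ * l ^ 2)) := by
          refine sum_le_sum fun c hc => ?_
          rw [ex_add sg0 (gP.const_mul _) ((gA c).const_mul _), ex_smul, ex_smul]
          refine add_le_add (mul_le_mul_of_nonneg_left hP4 (by positivity))
            (mul_le_mul_of_nonneg_left (hA4 c hc) (by positivity))
      _ = 41 * C₂ * l ^ 3 := by
          rw [sum_const, nsmul_eq_mul, hTc]
          field_simp
          ring
  -- numbers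
  have hl3 : l ^ 3 ≤ 216 * 2 ^ j := by
    have h3 : l ≤ 6 * m := by rw [hl]; linarith
    have h4 : l ^ 3 ≤ (6 * (m : ℝ)) ^ 3 := pow_le_pow_left₀ hl0.le h3 3
    have h5 : (m : ℝ) ^ 3 ≤ 2 ^ j := by
      rw [hm]
      push_cast
      rw [← pow_mul]
      exact pow_le_pow_right₀ (by norm_num) (by omega)
    calc l ^ 3 ≤ (6 * (m : ℝ)) ^ 3 := h4
      _ = 216 * (m : ℝ) ^ 3 := by ring
      _ ≤ _ := mul_le_mul_of_nonneg_left h5 (by norm_num)
  have hnum : 1 / 2 * (κ ^ 2 / 4 ^ (j + 1) * (41 * C₂ * l ^ 3)) ≤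
      1107 * C₂ * κ ^ 2 * (2 : ℝ) ^ (-(min (c₁ / 3) 1 * j)) := by
    have h3 : (2 : ℝ) ^ (-(j : ℝ)) ≤ (2 : ℝ) ^ (-(min (c₁ / 3) 1 * j)) := by
      refine Real.rpow_le_rpow_of_exponent_le (by norm_num) ?_
      have := mul_le_mul_of_nonneg_right (min_le_right (c₁ / 3) 1) (Nat.cast_nonneg (α := ℝ) j)
      linarith
    have h4 : (2 : ℝ) ^ (-(j : ℝ)) = 2 ^ j / 4 ^ j := by
      rw [Real.rpow_neg (by norm_num), Real.rpow_natCast,
        show (4 : ℝ) ^ j = 2 ^ j * 2 ^ j by rw [← mul_pow]; norm_num]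
      field_simp
    calc 1 / 2 * (κ ^ 2 / 4 ^ (j + 1) * (41 * C₂ * l ^ 3)) ≤
          1 / 2 * (κ ^ 2 / 4 ^ (j + 1) * (41 * C₂ * (216 * 2 ^ j))) := by
          gcongr
      _ = 1107 * C₂ * κ ^ 2 * (2 ^ j / 4 ^ j) := by
          rw [show (4 : ℝ) ^ (j + 1) = 4 ^ j * 4 from pow_succ 4 j]
          field_simp
          ring
      _ ≤ _ := by
          rw [← h4]
          exact mul_le_mul_of_nonneg_left h3 (by positivity)
  have hidn : 9 * (C₁ * (m : ℝ) ^ (-c₁)) ≤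
      9 * C₁ * (2 : ℝ) ^ c₁ * (2 : ℝ) ^ (-(min (c₁ / 3) 1 * j)) := by
    have h3 : (m : ℝ) ^ (-c₁) ≤ (2 : ℝ) ^ c₁ * (2 : ℝ) ^ (-(min (c₁ / 3) 1 * j)) := by
      have e : (m : ℝ) = (2 : ℝ) ^ ((j / 3 : ℕ) : ℝ) := by
        rw [hm, Real.rpow_natCast]
        push_cast
        rfl
      rw [e, ← Real.rpow_mul (by norm_num), ← Real.rpow_add (by norm_num)]
      refine Real.rpow_le_rpow_of_exponent_le (by norm_num) ?_
      have h4 := mul_le_mul_of_nonneg_right (min_le_left (c₁ / 3) 1) (Nat.cast_nonneg (α := ℝ) j)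
      have h5 : (j : ℝ) ≤ 3 * ((j / 3 : ℕ) : ℝ) + 2 := by
        exact_mod_cast (by omega : j ≤ 3 * (j / 3) + 2)
      nlinarith
    calc 9 * (C₁ * (m : ℝ) ^ (-c₁)) ≤
          9 * (C₁ * ((2 : ℝ) ^ c₁ * (2 : ℝ) ^ (-(min (c₁ / 3) 1 * j)))) := by gcongr
      _ = _ := by ring
  have hfin : (9 * C₁ * (2 : ℝ) ^ c₁ + 1107 * C₂ * κ ^ 2) *
      (2 : ℝ) ^ (-(min (c₁ / 3) 1 * j)) =
      9 * C₁ * (2 : ℝ) ^ c₁ * (2 : ℝ) ^ (-(min (c₁ / 3) 1 * j)) +
        1107 * C₂ * κ ^ 2 * (2 : ℝ) ^ (-(min (c₁ / 3) 1 * j)) := by ring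
  rw [hfin]
  linarith

end Vale.Agent.P159.TM.H574
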