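import Vale.Agent.P159.TM.H22.Mono
import Vale.Agent.P159.TM.H708.Pd
import Vale.Agent.P159.TM.H870.Strip

/-!
MONO for general Ginibre base weights (`SG w`, `Gle w w` of H22): factors in the class `PD` of H708
lower increasing observables.  Weights `∏ wI · 1{h = 0 on X} · exp (-Q/2)` with a quadratic form
`Q ≥ 0` are Ginibre weights as soon as they have all exponential moments.
-/

open MeasureTheory Filter Topology

namespace Vale.Agent.P159.TM.H574

open Vale.Agent.P159 Vale.Agent.P159.H353 Vale.Agent.P159.R2.H254 Vale.Agent.P159.T1.H934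
open Vale.Agent.P159.TM.H22 (SG Gle lin nn_nonneg nn_neg lin_add lin_sub)
open Vale.Agent.P159.TM.H708 (PD iX)

/-- monotone limit `δ → 0` of `exp (-δ b)` under a sum -/
lemma tendsto_exp0 {ι : Type*} {a b : ι → ℝ} (hb : ∀ x, 0 ≤ b x)
    (ha : Summable fun x => |a x|) :
    Tendsto (fun δ : ℝ => ∑' x, a x * Real.exp (-(δ * b x))) (𝓝[>] 0) (𝓝 (∑' x, a x)) := by
  refine tendsto_tsum_of_dominated_convergence ha (fun x => ?_) ?_
  · have h1 : Continuous fun δ : ℝ => a x * Real.exp (-(δ * b x)) := by fun_prop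
    have h2 := (h1.tendsto 0).mono_left (nhdsWithin_le_nhds (s := Set.Ioi 0))
    simpa using h2
  · filter_upwards [self_mem_nhdsWithin] with δ hδ x
    rw [Real.norm_eq_abs, abs_mul, abs_of_pos (Real.exp_pos _)]
    refine mul_le_of_le_one_right (abs_nonneg _) (Real.exp_le_one_iff.2 ?_)
    have := mul_nonneg (le_of_lt (Set.mem_Ioi.1 hδ)) (hb x)
    linarith

section cls

variable {V : Type} [Fintype V]

lemma summable_exp_nn : Summable fun h : V → ℤ => Real.exp (-H22.nn h) := by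
  classical
  have h1 : Summable fun k : ℤ => Real.exp (-|(k : ℝ)|) := by
    have h2 : Summable fun n : ℕ => Real.exp (-1) ^ n :=
      summable_geometric_of_lt_one (Real.exp_pos _).le (by rw [Real.exp_lt_one_iff]; norm_num)
    have h3 : Summable fun n : ℕ => Real.exp (-|(n : ℝ)|) := by
      refine h2.congr fun n => ?_
      rw [← Real.exp_nat_mul, abs_of_nonneg (Nat.cast_nonneg n)]
      congr 1
      ring
    refine Summable.of_nat_of_neg ?_ ?_
    · simpa using h3
    · simpa using h3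
  have h4 := H870.summable_pi_prod (V := V) (g := fun _ k => Real.exp (-|(k : ℝ)|))
    (fun _ _ => (Real.exp_pos _).le) fun _ => h1
  refine h4.congr fun h => ?_
  rw [← Real.exp_sum, Finset.sum_neg_distrib]
  rfl

/-- superexponential decay gives the class `SG` -/
lemma sg_of_le {w : (V → ℤ) → ℝ} (h0 : ∀ h, 0 ≤ w h) (he : ∀ h, w (-h) = w h)
    (hb : ∀ c : ℝ, 0 ≤ c → ∃ C : ℝ, ∀ h, w h ≤ C * Real.exp (-(c * H22.nn h))) : SG w := by
  refine ⟨h0, he, fun t => ?_⟩
  obtain ⟨C, hC⟩ := hb (|t| + 1) (by positivity)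
  refine Summable.of_nonneg_of_le (fun h => mul_nonneg (h0 h) (Real.exp_pos _).le) (fun h => ?_)
    (summable_exp_nn.mul_left C)
  have hC0 : 0 ≤ C := by
    by_contra h1
    have h2 := hC h
    have h3 := h0 h
    have h4 : C * Real.exp (-((|t| + 1) * H22.nn h)) < 0 :=
      mul_neg_of_neg_of_pos (not_le.1 h1) (Real.exp_pos _)
    linarith
  calc w h * Real.exp (t * H22.nn h) ≤ C * Real.exp (-((|t| + 1) * H22.nn h)) * Real.exp (t * H22.nn h) :=
        mul_le_mul_of_nonneg_right (hC h) (Real.exp_pos _).le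
    _ = C * Real.exp (-((|t| + 1) * H22.nn h) + t * H22.nn h) := by rw [mul_assoc, ← Real.exp_add]
    _ ≤ C * Real.exp (-H22.nn h) := by
        refine mul_le_mul_of_nonneg_left (Real.exp_le_exp.2 ?_) hC0
        have := mul_le_mul_of_nonneg_right (le_abs_self t) (nn_nonneg h)
        linarith

lemma gr_conv {g : (V → ℤ) → ℝ} (hg : H22.Gr g) : H708.Gr g := by
  obtain ⟨C, t, hC, ht, hb⟩ := hg
  refine ⟨C, fun _ => t, fun h => (hb h).trans_eq ?_⟩
  congr 2
  unfold H22.nn
  rw [Finset.mul_sum]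

/-- **Ginibre property** of `∏ wI · 1{h = 0 on X} · exp (-Q/2)`. -/
theorem gle_quad {E : Type} [Fintype E] (D : (V → ℤ) →+ (E → ℤ)) {J : E → ℝ}
    (hJ : ∀ e, 0 ≤ J e) (X : Set V) {Q : (V → ℤ) → ℝ} (hQ : ∀ h, 0 ≤ Q h)
    (par : ∀ x y, Q (x + y) + Q (x - y) = 2 * Q x + 2 * Q y)
    (hw : SG fun h => W D J h * (iX X h * Real.exp (-(Q h / 2)))) :
    Gle (fun h => W D J h * (iX X h * Real.exp (-(Q h / 2))))
      fun h => W D J h * (iX X h * Real.exp (-(Q h / 2))) := by
  intro g hg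
  rw [abs_of_nonneg]
  set w : (V → ℤ) → ℝ := fun h => W D J h * (iX X h * Real.exp (-(Q h / 2))) with hwd
  have hs := H22.BB_sum hw hw hg hg
  have key : ∀ δ : ℝ, 0 < δ → 0 ≤ ∑' x : (V → ℤ) × (V → ℤ),
      (w x.1 * w x.2 * (g (x.1 + x.2) * g (x.1 - x.2))) *
        Real.exp (-(δ * (∑ v, (x.1 v : ℝ) ^ 2 + ∑ v, (x.2 v : ℝ) ^ 2))) := by
    intro δ hδ
    set G : (V → ℤ) → ℝ := fun h => H708.ga (fun _ => δ) h *
      (Real.exp (-(Q h / 4)) * (iX X h * g h)) with hG
    have hGs : Summable fun h => |G h| := by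
      refine H708.summable_ga_mul (fun _ => hδ) ?_
      refine H708.Gr.mul (H708.Gr.of_bdd (C := 1) fun h => ?_)
        (H708.Gr.mul (H708.Gr.of_bdd (C := 1) fun h => ?_) (gr_conv hg))
      · rw [abs_of_pos (Real.exp_pos _)]
        exact Real.exp_le_one_iff.2 (by linarith [hQ h])
      · rw [abs_of_nonneg (H708.iX_nonneg X h)]; exact H708.iX_le X h
    have h0 := H22.dup_sum (H := V → ℤ) H708.no2 D hJ (K := 0) (fun _ => le_rfl) hGs
      (σ := 0) (by simp)
    refine h0.trans_eq (tsum_congr fun x => ?_)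
    have e1 := H708.iX_split X x.1 x.2
    have e2 : Real.exp (-(Q (x.1 + x.2) / 4)) * Real.exp (-(Q (x.1 - x.2) / 4)) =
        Real.exp (-(Q x.1 / 2)) * Real.exp (-(Q x.2 / 2)) := by
      rw [← Real.exp_add, ← Real.exp_add]
      congr 1
      linarith [par x.1 x.2]
    have e3 : H708.ga (fun _ => δ) (x.1 + x.2) * H708.ga (fun _ => δ) (x.1 - x.2) =
        Real.exp (-(δ * (∑ v, (x.1 v : ℝ) ^ 2 + ∑ v, (x.2 v : ℝ) ^ 2))) := by
      unfold H708.ga
      rw [← Real.exp_add]
      congr 1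
      rw [← neg_add, ← Finset.sum_add_distrib, ← Finset.sum_add_distrib, Finset.mul_sum]
      congr 1
      refine Finset.sum_congr rfl fun v _ => ?_
      simp only [Pi.add_apply, Pi.sub_apply]
      push_cast
      ring
    rw [add_zero, zero_mul, add_zero, hG, hwd]
    simp only
    calc W D J x.1 * W D J x.2 * (H708.ga (fun _ => δ) (x.1 + x.2) *
          (Real.exp (-(Q (x.1 + x.2) / 4)) * (iX X (x.1 + x.2) * g (x.1 + x.2))) *
          (H708.ga (fun _ => δ) (x.1 - x.2) *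
          (Real.exp (-(Q (x.1 - x.2) / 4)) * (iX X (x.1 - x.2) * g (x.1 - x.2)))))
        = W D J x.1 * W D J x.2 * (iX X (x.1 + x.2) * iX X (x.1 - x.2)) *
          (Real.exp (-(Q (x.1 + x.2) / 4)) * Real.exp (-(Q (x.1 - x.2) / 4))) *
          (g (x.1 + x.2) * g (x.1 - x.2)) *
          (H708.ga (fun _ => δ) (x.1 + x.2) * H708.ga (fun _ => δ) (x.1 - x.2)) := by ring
      _ = _ := by rw [← e1, e2, e3]; ring
  have hlim := tendsto_exp0 (a := fun x : (V → ℤ) × (V → ℤ) =>
      w x.1 * w x.2 * (g (x.1 + x.2) * g (x.1 - x.2)))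
    (b := fun x => ∑ v, (x.1 v : ℝ) ^ 2 + ∑ v, (x.2 v : ℝ) ^ 2) (fun x => by positivity) hs.abs
  refine ge_of_tendsto hlim ?_
  filter_upwards [self_mem_nhdsWithin] with δ hδ
  exact key δ hδ

/-- increasing observables: exponential and second moments -/
def Inc (F : (V → ℤ) → ℝ) : Prop :=
  H22.Gr F ∧ ∃ φ : (V → ℤ) → ℝ, H22.Gr φ ∧ ∀ h k, F h - F k = φ (h + k) * φ (h - k)

lemma gr_sq (r : V → ℝ) : H22.Gr fun h => lin r h ^ 2 := by
  have := (H22.Gr.lin r).mul (H22.Gr.lin r)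
  simpa only [← pow_two] using this

lemma inc_sq (r : V → ℝ) : Inc fun h => lin r h ^ 2 :=
  ⟨gr_sq r, fun h => lin r h, H22.Gr.lin r, fun h k => by
    simp only
    rw [lin_add, lin_sub]
    ring⟩

variable {w : (V → ℤ) → ℝ}

lemma lin_hsmul (r : V → ℝ) (h : V → ℤ) : lin (fun x => 1 / 2 * r x) h = lin r h / 2 := by
  unfold lin
  rw [Finset.sum_div]
  exact Finset.sum_congr rfl fun x _ => by ring

/-- **Covariance inequality**: an increasing observable against a cosine. -/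
theorem inc_cos (hw : SG w) (hG : Gle w w) {F : (V → ℤ) → ℝ} (hF : Inc F) (r : V → ℝ) :
    H22.MM w (fun h => F h * Real.cos (lin r h)) * H22.MM w (fun _ => 1) ≤
      H22.MM w F * H22.MM w fun h => Real.cos (lin r h) := by
  obtain ⟨gF, φ, gφ, hφ⟩ := hF
  have h0 := hG.pos (gφ.mul (H22.Gr.sin fun x => 1 / 2 * r x))
  have a1 := hw.sabs (H22.Gr.const (V := V) 1)
  have aF := hw.sabs gF
  have aC := hw.sabs (H22.Gr.cos r)
  have aFC := hw.sabs (gF.mul (H22.Gr.cos r))
  have h1 := (((hasSum_mul_pair aF aC).sub (hasSum_mul_pair aFC a1)).sub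
    (hasSum_mul_pair a1 aFC)).add (hasSum_mul_pair aC aF)
  have h2 := h1.mul_left (1 / 2)
  unfold H22.BB at h0
  have e : ∀ x : (V → ℤ) × (V → ℤ), w x.1 * w x.2 *
      (φ (x.1 + x.2) * Real.sin (lin (fun x => 1 / 2 * r x) (x.1 + x.2)) *
        (φ (x.1 - x.2) * Real.sin (lin (fun x => 1 / 2 * r x) (x.1 - x.2)))) =
      1 / 2 * (w x.1 * F x.1 * (w x.2 * Real.cos (lin r x.2)) -
        w x.1 * (F x.1 * Real.cos (lin r x.1)) * (w x.2 * 1) -
        w x.1 * 1 * (w x.2 * (F x.2 * Real.cos (lin r x.2))) +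
        w x.1 * Real.cos (lin r x.1) * (w x.2 * F x.2)) := by
    intro x
    have h3 : Real.sin (lin (fun x => 1 / 2 * r x) (x.1 + x.2)) *
        Real.sin (lin (fun x => 1 / 2 * r x) (x.1 - x.2)) =
        (Real.cos (lin r x.2) - Real.cos (lin r x.1)) / 2 := by
      rw [lin_hsmul, lin_hsmul, lin_add, lin_sub, Real.cos_sub_cos]
      have e1 : (lin r x.2 + lin r x.1) / 2 = (lin r x.1 + lin r x.2) / 2 := by ring
      have e2 : (lin r x.2 - lin r x.1) / 2 = -((lin r x.1 - lin r x.2) / 2) := by ring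
      rw [e1, e2, Real.sin_neg]
      ring
    have h4 := hφ x.1 x.2
    have h5 : φ (x.1 + x.2) * Real.sin (lin (fun x => 1 / 2 * r x) (x.1 + x.2)) *
        (φ (x.1 - x.2) * Real.sin (lin (fun x => 1 / 2 * r x) (x.1 - x.2))) =
        (F x.1 - F x.2) * ((Real.cos (lin r x.2) - Real.cos (lin r x.1)) / 2) := by
      rw [← h3, h4]
      ring
    rw [h5]
    ring
  rw [tsum_congr e, h2.tsum_eq] at h0
  unfold H22.MM
  nlinarith [h0]

lemma pd_gr {ψ : (V → ℤ) → ℝ} (hψ : PD ψ) : H22.Gr ψ := by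
  obtain ⟨C, hC⟩ := hψ.bdd
  exact H22.Gr.of_bdd C hC

/-- the inductive statement -/
theorem mono_pd_cos (hw : SG w) (hG : Gle w w) {F : (V → ℤ) → ℝ} (hF : Inc F)
    {ψ : (V → ℤ) → ℝ} (hψ : PD ψ) (τ : V → ℝ) :
    H22.MM w (fun h => F h * (ψ h * Real.cos (lin τ h))) * H22.MM w (fun _ => 1) ≤
      H22.MM w F * H22.MM w fun h => ψ h * Real.cos (lin τ h) := by
  induction hψ generalizing τ with
  | one => simpa only [one_mul] using inc_cos hw hG hF τ
  | @mul ψ hψ μ hμ r ih =>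
    have gψ := pd_gr hψ
    have s1 : ∀ ρ : V → ℝ, Summable fun h => |w h * (F h * (ψ h * Real.cos (lin ρ h)))| :=
      fun ρ => hw.sabs (hF.1.mul (gψ.mul (H22.Gr.cos ρ)))
    have s2 : ∀ ρ : V → ℝ, Summable fun h => |w h * (ψ h * Real.cos (lin ρ h))| :=
      fun ρ => hw.sabs (gψ.mul (H22.Gr.cos ρ))
    obtain ⟨i1, f1⟩ := H708.fub (s1 τ) μ r
    obtain ⟨i2, f2⟩ := H708.fub (s2 τ) μ r
    have e1 : H22.MM w (fun h => F h * (ψ h * H708.mx μ r h * Real.cos (lin τ h))) =
        ∫ t, (∑' h, w h * (F h * (ψ h * Real.cos (lin τ h))) *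
          Real.cos (t * H708.lf r h)) ∂μ := by
      rw [f1]
      exact tsum_congr fun h => by ring
    have e2 : H22.MM w (fun h => ψ h * H708.mx μ r h * Real.cos (lin τ h)) =
        ∫ t, (∑' h, w h * (ψ h * Real.cos (lin τ h)) * Real.cos (t * H708.lf r h)) ∂μ := by
      rw [f2]
      exact tsum_congr fun h => by ring
    rw [e1, e2, ← integral_mul_const, ← integral_const_mul]
    refine integral_mono (i1.mul_const _) (i2.const_mul _) fun t => ?_
    have hcos : ∀ h : V → ℤ, Real.cos (lin τ h) * Real.cos (t * H708.lf r h) =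
        1 / 2 * (Real.cos (lin (t • r + τ) h) + Real.cos (lin (t • r - τ) h)) := by
      intro h
      rw [H22.lin_add_left, H22.lin_sub_left, H22.lin_smul, Real.cos_add, Real.cos_sub]
      have : H708.lf r h = lin r h := rfl
      rw [this]
      ring
    have t1 : ∑' h, w h * (F h * (ψ h * Real.cos (lin τ h))) * Real.cos (t * H708.lf r h) =
        1 / 2 * (H22.MM w (fun h => F h * (ψ h * Real.cos (lin (t • r + τ) h))) +
          H22.MM w (fun h => F h * (ψ h * Real.cos (lin (t • r - τ) h)))) := by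
      unfold H22.MM
      rw [← (s1 _).of_abs.tsum_add (s1 _).of_abs, ← tsum_mul_left]
      refine tsum_congr fun h => ?_
      linear_combination (w h * F h * ψ h) * hcos h
    have t2 : ∑' h, w h * (ψ h * Real.cos (lin τ h)) * Real.cos (t * H708.lf r h) =
        1 / 2 * (H22.MM w (fun h => ψ h * Real.cos (lin (t • r + τ) h)) +
          H22.MM w (fun h => ψ h * Real.cos (lin (t • r - τ) h))) := by
      unfold H22.MM
      rw [← (s2 _).of_abs.tsum_add (s2 _).of_abs, ← tsum_mul_left]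
      refine tsum_congr fun h => ?_
      linear_combination (w h * ψ h) * hcos h
    simp only
    rw [t1, t2]
    have h3 := ih (t • r + τ)
    have h4 := ih (t • r - τ)
    linarith

/-- **MONO**: factors in `PD` lower the increasing observables, general base weight. -/
theorem mono_pd (hw : SG w) (hG : Gle w w) {F : (V → ℤ) → ℝ} (hF : Inc F)
    {ψ : (V → ℤ) → ℝ} (hψ : PD ψ) :
    H22.MM w (fun h => F h * ψ h) * H22.MM w (fun _ => 1) ≤ H22.MM w F * H22.MM w ψ := by
  have h := mono_pd_cos hw hG hF hψ 0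
  have e : ∀ h : V → ℤ, Real.cos (lin (0 : V → ℝ) h) = 1 := fun h => by
    rw [H22.lin_zero, Real.cos_zero]
  simpa only [e, mul_one] using h

end cls

end Vale.Agent.P159.TM.H574
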