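import Mathlib

/-!
# P159, T1, row I2: the path lemma (Cauchy-Schwarz along a mass path)  [helper574]

For a countable space `X` with weights `w ≥ 0`, a nonnegative functional `Q` and a functional `F`,
let `E_t` be the expectation with weight `w * exp (-(t/2) Q)`. Then
`|E_0 F - E_1 F| ≤ S * sqrt ((E_0 Q - E_1 Q)/2)` if `Var_t F ≤ S^2` for all `t ∈ [0,1]`.
-/

namespace Vale.Agent.P159.TM.H574

open Real Set

variable {X : Type*}

/-- unnormalised expectation with weight `w * exp (-(t/2) Q)` -/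
noncomputable def At (w Q G : X → ℝ) (t : ℝ) : ℝ := ∑' x, w x * G x * exp (-(t / 2) * Q x)

/-- normalised expectation with weight `w * exp (-(t/2) Q)` -/
noncomputable def Et (w Q G : X → ℝ) (t : ℝ) : ℝ := At w Q G t / At w Q (fun _ => 1) t

section basic

variable {w Q G F : X → ℝ}

lemma exp_le_one' (hQ : ∀ x, 0 ≤ Q x) {t : ℝ} (ht : 0 ≤ t) (x : X) :
    exp (-(t / 2) * Q x) ≤ 1 := by
  rw [exp_le_one_iff]
  have := mul_nonneg (by positivity : (0 : ℝ) ≤ t / 2) (hQ x)
  linarith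

lemma norm_term_le (hw : ∀ x, 0 ≤ w x) (hQ : ∀ x, 0 ≤ Q x) {t : ℝ} (ht : 0 ≤ t) (x : X) :
    ‖w x * G x * exp (-(t / 2) * Q x)‖ ≤ w x * |G x| := by
  rw [norm_mul, norm_mul, Real.norm_eq_abs, Real.norm_eq_abs, Real.norm_eq_abs,
    abs_of_nonneg (hw x), abs_of_pos (exp_pos _)]
  have := exp_le_one' hQ ht x
  have h0 : 0 ≤ w x * |G x| := mul_nonneg (hw x) (abs_nonneg _)
  nlinarith

lemma summable_term (hw : ∀ x, 0 ≤ w x) (hQ : ∀ x, 0 ≤ Q x)
    (hG : Summable fun x => w x * |G x|) {t : ℝ} (ht : 0 ≤ t) :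
    Summable fun x => w x * G x * exp (-(t / 2) * Q x) :=
  Summable.of_norm_bounded hG (fun x => norm_term_le hw hQ ht x)

lemma continuousOn_At (hw : ∀ x, 0 ≤ w x) (hQ : ∀ x, 0 ≤ Q x)
    (hG : Summable fun x => w x * |G x|) : ContinuousOn (At w Q G) (Ici 0) := by
  refine continuousOn_tsum (fun x => ?_) hG (fun x t ht => norm_term_le hw hQ ht x)
  fun_prop

lemma hasDerivAt_At (hw : ∀ x, 0 ≤ w x) (hQ : ∀ x, 0 ≤ Q x)
    (hG : Summable fun x => w x * |G x|) (hGQ : Summable fun x => w x * |G x * Q x|)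
    {t : ℝ} (ht : 0 < t) :
    HasDerivAt (At w Q G) (-(1 / 2) * At w Q (fun x => G x * Q x) t) t := by
  have key : HasDerivAt (fun z => ∑' x, w x * G x * exp (-(z / 2) * Q x))
      (∑' x, w x * G x * (exp (-(t / 2) * Q x) * (-(1 / 2) * Q x))) t := by
    refine hasDerivAt_tsum_of_isPreconnected (g := fun x z => w x * G x * exp (-(z / 2) * Q x))
      (g' := fun x z => w x * G x * (exp (-(z / 2) * Q x) * (-(1 / 2) * Q x)))
      (t := Ioi 0) (y₀ := t) (u := fun x => w x * |G x * Q x|) hGQ isOpen_Ioi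
      isPreconnected_Ioi (fun x z _ => ?_) (fun x z hz => ?_) ht
      (summable_term hw hQ hG ht.le) ht
    · have h1 : HasDerivAt (fun z : ℝ => -(z / 2) * Q x) (-(1 / 2) * Q x) z := by
        have := ((hasDerivAt_id z).div_const 2).neg.mul_const (Q x)
        simpa using this
      exact (h1.exp).const_mul _
    · have h1 := exp_le_one' hQ (le_of_lt hz) x
      have h2 := exp_pos (-(z / 2) * Q x)
      rw [norm_mul, norm_mul, norm_mul, norm_mul]
      simp only [Real.norm_eq_abs]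
      rw [abs_of_nonneg (hw x), abs_of_pos h2, abs_of_nonneg (hQ x), abs_mul,
        abs_of_nonneg (hQ x)]
      have h3 : |(-(1 / 2) : ℝ)| = 1 / 2 := by norm_num
      rw [h3]
      have h4 : 0 ≤ w x * |G x| := mul_nonneg (hw x) (abs_nonneg _)
      have h5 : 0 ≤ w x * |G x| * Q x := mul_nonneg h4 (hQ x)
      nlinarith
  have e : (∑' x, w x * G x * (exp (-(t / 2) * Q x) * (-(1 / 2) * Q x)))
      = -(1 / 2) * At w Q (fun x => G x * Q x) t := by
    rw [At, ← tsum_mul_left]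
    exact tsum_congr fun x => by ring
  rw [← e]
  exact key

lemma At_add {G' : X → ℝ} (hw : ∀ x, 0 ≤ w x) (hQ : ∀ x, 0 ≤ Q x)
    (hG : Summable fun x => w x * |G x|) (hG' : Summable fun x => w x * |G' x|)
    {t : ℝ} (ht : 0 ≤ t) (a b : ℝ) :
    At w Q (fun x => a * G x + b * G' x) t = a * At w Q G t + b * At w Q G' t := by
  unfold At
  rw [← tsum_mul_left, ← tsum_mul_left,
    ← ((summable_term hw hQ hG ht).mul_left a).tsum_add
      ((summable_term hw hQ hG' ht).mul_left b)]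
  exact tsum_congr fun x => by ring

lemma At_nonneg (hw : ∀ x, 0 ≤ w x) (hG : ∀ x, 0 ≤ G x) (t : ℝ) : 0 ≤ At w Q G t :=
  tsum_nonneg fun x => mul_nonneg (mul_nonneg (hw x) (hG x)) (exp_pos _).le

lemma At_one_pos (hw : ∀ x, 0 ≤ w x) (hQ : ∀ x, 0 ≤ Q x) (hs : Summable w)
    (h0 : ∃ x, 0 < w x) {t : ℝ} (ht : 0 ≤ t) : 0 < At w Q (fun _ => 1) t := by
  obtain ⟨x, hx⟩ := h0
  have hs' : Summable fun x => w x * (1 : ℝ) * exp (-(t / 2) * Q x) :=
    summable_term (G := fun _ => 1) hw hQ (by simpa using hs) ht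
  have := hs'.sum_le_tsum {x} (fun y _ => mul_nonneg (mul_nonneg (hw y) zero_le_one)
    (exp_pos _).le)
  simp only [Finset.sum_singleton] at this
  have h2 : 0 < w x * (1 : ℝ) * exp (-(t / 2) * Q x) := by positivity
  unfold At
  linarith

end basic

section sq

variable {w F G : X → ℝ}

/-- from `w G²` and `w` summable to `w |G|` summable -/
lemma summable_abs_of_sq (hw : ∀ x, 0 ≤ w x) (hs : Summable w)
    (hG : Summable fun x => w x * G x ^ 2) : Summable fun x => w x * |G x| := by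
  refine Summable.of_nonneg_of_le (fun x => mul_nonneg (hw x) (abs_nonneg _)) (fun x => ?_)
    (hs.add hG)
  have h1 : |G x| ≤ 1 + G x ^ 2 := by
    rw [← sq_abs (G x)]
    nlinarith [sq_nonneg (|G x| - 1), sq_nonneg (|G x|)]
  have := mul_le_mul_of_nonneg_left h1 (hw x)
  linarith

lemma summable_mul_of_sq (hw : ∀ x, 0 ≤ w x) (hF : Summable fun x => w x * F x ^ 2)
    (hG : Summable fun x => w x * G x ^ 2) : Summable fun x => w x * |F x * G x| := by
  refine Summable.of_nonneg_of_le (fun x => mul_nonneg (hw x) (abs_nonneg _)) (fun x => ?_)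
    (hF.add hG)
  have h1 : |F x * G x| ≤ F x ^ 2 + G x ^ 2 := by
    rw [abs_mul, ← sq_abs (F x), ← sq_abs (G x)]
    nlinarith [sq_nonneg (|F x| - |G x|), sq_nonneg (|F x|), sq_nonneg (|G x|)]
  have := mul_le_mul_of_nonneg_left h1 (hw x)
  linarith

end sq

/-- covariance along the path -/
noncomputable def Ct (w Q F G : X → ℝ) (t : ℝ) : ℝ :=
  Et w Q (fun x => F x * G x) t - Et w Q F t * Et w Q G t

section main

variable {w Q F G : X → ℝ}

/-- nonnegativity of the variance of `a F + b G`, expanded -/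
lemma var_comb_nonneg (hw : ∀ x, 0 ≤ w x) (hQ : ∀ x, 0 ≤ Q x) (hs : Summable w)
    (h0 : ∃ x, 0 < w x) (hF : Summable fun x => w x * F x ^ 2)
    (hG : Summable fun x => w x * G x ^ 2) {t : ℝ} (ht : 0 ≤ t) (a b : ℝ) :
    0 ≤ a ^ 2 * Ct w Q F F t + 2 * (a * b) * Ct w Q F G t + b ^ 2 * Ct w Q G G t := by
  have hZ := At_one_pos hw hQ hs h0 ht
  have hFa := summable_abs_of_sq hw hs hF
  have hGa := summable_abs_of_sq hw hs hG
  have hFF : Summable fun x => w x * |F x * F x| := summable_mul_of_sq hw hF hF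
  have hGG : Summable fun x => w x * |G x * G x| := summable_mul_of_sq hw hG hG
  have hFG : Summable fun x => w x * |F x * G x| := summable_mul_of_sq hw hF hG
  have h1 : Summable fun x => w x * |(1 : ℝ)| := by simpa using hs
  set Z := At w Q (fun _ => 1) t with hZdef
  set m := a * Et w Q F t + b * Et w Q G t with hm
  have hnn : 0 ≤ At w Q (fun x => (a * F x + b * G x - m) ^ 2) t :=
    At_nonneg hw (fun x => sq_nonneg _) t
  have sF := summable_term hw hQ hFa ht
  have sG := summable_term hw hQ hGa ht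
  have sFF := summable_term (G := fun x => F x * F x) hw hQ hFF ht
  have sGG := summable_term (G := fun x => G x * G x) hw hQ hGG ht
  have sFG := summable_term (G := fun x => F x * G x) hw hQ hFG ht
  have s1 := summable_term (G := fun _ => (1 : ℝ)) hw hQ h1 ht
  have hexp : At w Q (fun x => (a * F x + b * G x - m) ^ 2) t
      = a ^ 2 * At w Q (fun x => F x * F x) t + 2 * (a * b) * At w Q (fun x => F x * G x) t
        + b ^ 2 * At w Q (fun x => G x * G x) t - 2 * m * a * At w Q F t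
        - 2 * m * b * At w Q G t + m ^ 2 * Z := by
    rw [hZdef]
    unfold At
    rw [← tsum_mul_left, ← tsum_mul_left, ← tsum_mul_left, ← tsum_mul_left, ← tsum_mul_left,
      ← tsum_mul_left,
      ← (sFF.mul_left (a ^ 2)).tsum_add (sFG.mul_left (2 * (a * b))),
      ← ((sFF.mul_left (a ^ 2)).add (sFG.mul_left (2 * (a * b)))).tsum_add
        (sGG.mul_left (b ^ 2)),
      ← (((sFF.mul_left (a ^ 2)).add (sFG.mul_left (2 * (a * b)))).add
        (sGG.mul_left (b ^ 2))).tsum_sub (sF.mul_left (2 * m * a)),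
      ← ((((sFF.mul_left (a ^ 2)).add (sFG.mul_left (2 * (a * b)))).add
        (sGG.mul_left (b ^ 2))).sub (sF.mul_left (2 * m * a))).tsum_sub
        (sG.mul_left (2 * m * b)),
      ← (((((sFF.mul_left (a ^ 2)).add (sFG.mul_left (2 * (a * b)))).add
        (sGG.mul_left (b ^ 2))).sub (sF.mul_left (2 * m * a))).sub
        (sG.mul_left (2 * m * b))).tsum_add (s1.mul_left (m ^ 2))]
    exact tsum_congr fun x => by ring
  have e1 : At w Q F t = Et w Q F t * Z := by
    rw [Et, ← hZdef, div_mul_cancel₀ _ hZ.ne']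
  have e2 : At w Q G t = Et w Q G t * Z := by
    rw [Et, ← hZdef, div_mul_cancel₀ _ hZ.ne']
  have e3 : At w Q (fun x => F x * F x) t = Et w Q (fun x => F x * F x) t * Z := by
    rw [Et, ← hZdef, div_mul_cancel₀ _ hZ.ne']
  have e4 : At w Q (fun x => F x * G x) t = Et w Q (fun x => F x * G x) t * Z := by
    rw [Et, ← hZdef, div_mul_cancel₀ _ hZ.ne']
  have e5 : At w Q (fun x => G x * G x) t = Et w Q (fun x => G x * G x) t * Z := by
    rw [Et, ← hZdef, div_mul_cancel₀ _ hZ.ne']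
  rw [hexp, e1, e2, e3, e4, e5] at hnn
  unfold Ct
  have : 0 ≤ (a ^ 2 * (Et w Q (fun x => F x * F x) t - Et w Q F t * Et w Q F t)
      + 2 * (a * b) * (Et w Q (fun x => F x * G x) t - Et w Q F t * Et w Q G t)
      + b ^ 2 * (Et w Q (fun x => G x * G x) t - Et w Q G t * Et w Q G t)) * Z := by
    refine hnn.trans_eq ?_
    rw [hm]
    ring
  exact nonneg_of_mul_nonneg_left this hZ

lemma continuousOn_Et (hw : ∀ x, 0 ≤ w x) (hQ : ∀ x, 0 ≤ Q x) (hs : Summable w)
    (h0 : ∃ x, 0 < w x) (hG : Summable fun x => w x * |G x|) :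
    ContinuousOn (Et w Q G) (Ici 0) := by
  have h1 : Summable fun x => w x * |(1 : ℝ)| := by simpa using hs
  exact (continuousOn_At hw hQ hG).div (continuousOn_At hw hQ h1)
    (fun t ht => (At_one_pos hw hQ hs h0 ht).ne')

lemma hasDerivAt_Et (hw : ∀ x, 0 ≤ w x) (hQ : ∀ x, 0 ≤ Q x) (hs : Summable w)
    (h0 : ∃ x, 0 < w x) (hG : Summable fun x => w x * G x ^ 2)
    (hQ2 : Summable fun x => w x * Q x ^ 2) {t : ℝ} (ht : 0 < t) :
    HasDerivAt (Et w Q G) (-(1 / 2) * Ct w Q G Q t) t := by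
  have h1 : Summable fun x => w x * |(1 : ℝ)| := by simpa using hs
  have hZ := At_one_pos hw hQ hs h0 ht.le
  have hGa := summable_abs_of_sq hw hs hG
  have hQa := summable_abs_of_sq hw hs hQ2
  have hGQ : Summable fun x => w x * |G x * Q x| := summable_mul_of_sq hw hG hQ2
  have h1Q : Summable fun x => w x * |(1 : ℝ) * Q x| := by simpa using hQa
  have d1 := hasDerivAt_At (G := G) hw hQ hGa hGQ ht
  have d2 := hasDerivAt_At (G := fun _ => (1 : ℝ)) hw hQ h1 h1Q ht
  have d := d1.div d2 hZ.ne'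
  refine d.congr_deriv ?_
  unfold Ct Et
  have e : (fun x => (1 : ℝ) * Q x) = Q := by
    funext x
    simp
  rw [e]
  field_simp
  ring

/-- **path lemma**, one-sided, with a free parameter -/
lemma path_aux (hw : ∀ x, 0 ≤ w x) (hQ : ∀ x, 0 ≤ Q x) (hs : Summable w)
    (h0 : ∃ x, 0 < w x) (hF : Summable fun x => w x * F x ^ 2)
    (hQ2 : Summable fun x => w x * Q x ^ 2) {S : ℝ}
    (hS : ∀ t ∈ Icc (0 : ℝ) 1, Ct w Q F F t ≤ S ^ 2) (σ : ℝ) (hσ : σ ^ 2 = 1) {a : ℝ}
    (ha : 0 < a) :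
    σ * (Et w Q F 1 - Et w Q F 0) ≤ a * S ^ 2 / 4 + (Et w Q Q 0 - Et w Q Q 1) / (2 * a) := by
  have hFa := summable_abs_of_sq hw hs hF
  have hQa := summable_abs_of_sq hw hs hQ2
  set g : ℝ → ℝ := fun t => σ * Et w Q F t - a * S ^ 2 / 4 * t + Et w Q Q t / (2 * a) with hg
  have hcont : ContinuousOn g (Icc 0 1) := by
    have c1 : ContinuousOn (Et w Q F) (Icc 0 1) :=
      (continuousOn_Et hw hQ hs h0 hFa).mono Icc_subset_Ici_self
    have c2 : ContinuousOn (Et w Q Q) (Icc 0 1) :=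
      (continuousOn_Et hw hQ hs h0 hQa).mono Icc_subset_Ici_self
    exact ((continuousOn_const.mul c1).sub (by fun_prop)).add (c2.div_const _)
  have hder : ∀ t ∈ Ioo (0 : ℝ) 1, HasDerivAt g
      (σ * (-(1 / 2) * Ct w Q F Q t) - a * S ^ 2 / 4 + (-(1 / 2) * Ct w Q Q Q t) / (2 * a)) t := by
    intro t ht
    have d1 := hasDerivAt_Et (G := F) hw hQ hs h0 hF hQ2 ht.1
    have d2 := hasDerivAt_Et (G := Q) hw hQ hs h0 hQ2 hQ2 ht.1
    have d3 : HasDerivAt (fun t : ℝ => a * S ^ 2 / 4 * t) (a * S ^ 2 / 4) t := by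
      simpa using (hasDerivAt_id t).const_mul (a * S ^ 2 / 4)
    exact ((d1.const_mul σ).sub d3).add (d2.div_const _)
  have hanti : AntitoneOn g (Icc 0 1) := by
    refine antitoneOn_of_deriv_nonpos (convex_Icc 0 1) hcont ?_ ?_
    · intro t ht
      rw [interior_Icc] at ht
      exact (hder t ht).differentiableAt.differentiableWithinAt
    · intro t ht
      rw [interior_Icc] at ht
      rw [(hder t ht).deriv]
      have hv := var_comb_nonneg (F := F) (G := Q) hw hQ hs h0 hF hQ2 ht.1.le (σ * a) 1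
      have hSt := hS t ⟨ht.1.le, ht.2.le⟩
      have hσa : (σ * a) ^ 2 = a ^ 2 := by rw [mul_pow, hσ, one_mul]
      rw [hσa] at hv
      have h2 : a ^ 2 * Ct w Q F F t ≤ a ^ 2 * S ^ 2 :=
        mul_le_mul_of_nonneg_left hSt (sq_nonneg a)
      have h3 : 0 ≤ a ^ 2 * S ^ 2 + 2 * (σ * a) * Ct w Q F Q t + Ct w Q Q Q t := by
        nlinarith
      have h4 : σ * (-(1 / 2) * Ct w Q F Q t) - a * S ^ 2 / 4
          + (-(1 / 2) * Ct w Q Q Q t) / (2 * a)
          = -(a ^ 2 * S ^ 2 + 2 * (σ * a) * Ct w Q F Q t + Ct w Q Q Q t) / (4 * a) := by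
        field_simp
        ring
      rw [h4]
      exact div_nonpos_of_nonpos_of_nonneg (by linarith) (by positivity)
  have h := hanti (left_mem_Icc.2 zero_le_one) (right_mem_Icc.2 zero_le_one) zero_le_one
  simp only [hg] at h
  have e : (Et w Q Q 0 - Et w Q Q 1) / (2 * a) = Et w Q Q 0 / (2 * a) - Et w Q Q 1 / (2 * a) := by
    rw [sub_div]
  rw [e]
  linarith

/-- the mean of `Q` decreases along the path -/
lemma Et_Q_le (hw : ∀ x, 0 ≤ w x) (hQ : ∀ x, 0 ≤ Q x) (hs : Summable w)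
    (h0 : ∃ x, 0 < w x) (hQ2 : Summable fun x => w x * Q x ^ 2) :
    Et w Q Q 1 ≤ Et w Q Q 0 := by
  have h00 : Summable fun x => w x * (0 : ℝ) ^ 2 := by simpa using summable_zero
  have hC : ∀ t ∈ Icc (0 : ℝ) 1, Ct w Q (fun _ => (0 : ℝ)) (fun _ => (0 : ℝ)) t ≤ (0 : ℝ) ^ 2 := by
    intro t _
    simp [Ct, Et, At]
  have h := path_aux (F := fun _ => (0 : ℝ)) hw hQ hs h0 h00 hQ2 hC 1 (by norm_num)
    (a := 1) one_pos
  simp [Et, At] at h
  have h2 := path_aux (F := fun _ => (0 : ℝ)) hw hQ hs h0 h00 hQ2 hC 1 (by norm_num)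
    (a := 1) one_pos
  have e0 : ∀ t, Et w Q (fun _ => (0 : ℝ)) t = 0 := by
    intro t
    simp [Et, At]
  rw [e0, e0] at h2
  have : (0 : ℝ) ≤ (Et w Q Q 0 - Et w Q Q 1) / 2 := by
    have := h2
    norm_num at this
    linarith
  linarith

/-- **PATH LEMMA.** `|E_0 F - E_1 F| ≤ S sqrt ((E_0 Q - E_1 Q)/2)` if `Var_t F ≤ S²` on `[0,1]`. -/
theorem path (hw : ∀ x, 0 ≤ w x) (hQ : ∀ x, 0 ≤ Q x) (hs : Summable w)
    (h0 : ∃ x, 0 < w x) (hF : Summable fun x => w x * F x ^ 2)
    (hQ2 : Summable fun x => w x * Q x ^ 2) {S : ℝ} (hS0 : 0 ≤ S)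
    (hS : ∀ t ∈ Icc (0 : ℝ) 1, Ct w Q F F t ≤ S ^ 2) :
    |Et w Q F 0 - Et w Q F 1| ≤ S * sqrt ((Et w Q Q 0 - Et w Q Q 1) / 2) := by
  set D := Et w Q Q 0 - Et w Q Q 1 with hD
  have hD0 : 0 ≤ D := by
    rw [hD]
    linarith [Et_Q_le hw hQ hs h0 hQ2]
  -- enough: for all `a > 0`, `|..| ≤ a S²/4 + D/(2a)`
  have main : ∀ a : ℝ, 0 < a → |Et w Q F 0 - Et w Q F 1| ≤ a * S ^ 2 / 4 + D / (2 * a) := by
    intro a ha
    have h1 := path_aux hw hQ hs h0 hF hQ2 hS 1 (by norm_num) ha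
    have h2 := path_aux hw hQ hs h0 hF hQ2 hS (-1) (by norm_num) ha
    rw [abs_le]
    constructor <;> [linarith; linarith]
  rcases eq_or_lt_of_le hS0 with hS1 | hS1
  · -- `S = 0`
    rw [← hS1, zero_mul]
    rw [← hS1] at main
    by_contra hne
    push Not at hne
    set x := |Et w Q F 0 - Et w Q F 1| with hx
    have := main ((D + 1) / x) (by positivity)
    have h3 : (D + 1) / x * (0 : ℝ) ^ 2 / 4 + D / (2 * ((D + 1) / x)) = x * (D / (D + 1)) / 2 := by
      field_simp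
      ring
    rw [h3] at this
    have h4 : D / (D + 1) ≤ 1 := by
      rw [div_le_one (by linarith)]
      linarith
    nlinarith
  · rcases eq_or_lt_of_le hD0 with hD1 | hD1
    · rw [← hD1]
      simp only [zero_div, sqrt_zero, mul_zero]
      rw [← hD1] at main
      by_contra hne
      push Not at hne
      set x := |Et w Q F 0 - Et w Q F 1| with hx
      have := main (x / S ^ 2) (by positivity)
      have h3 : x / S ^ 2 * S ^ 2 / 4 + 0 / (2 * (x / S ^ 2)) = x / 4 := by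
        field_simp
        ring
      rw [h3] at this
      linarith
    · have hs2 : 0 < sqrt (2 * D) := sqrt_pos.2 (by linarith)
      have := main (sqrt (2 * D) / S) (by positivity)
      have hsq : sqrt (2 * D) ^ 2 = 2 * D := sq_sqrt (by linarith)
      have e1 : sqrt (D / 2) = sqrt (2 * D) / 2 := by
        rw [show D / 2 = (2 * D) / 2 ^ 2 by ring, sqrt_div (by linarith), sqrt_sq (by norm_num)]
      have e2 : sqrt (2 * D) / S * S ^ 2 / 4 + D / (2 * (sqrt (2 * D) / S))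
          = S * (sqrt (2 * D) / 2) := by
        have : D = sqrt (2 * D) ^ 2 / 2 := by rw [hsq]; ring
        field_simp
        nlinarith [this]
      rw [e1]
      linarith

end main

end Vale.Agent.P159.TM.H574
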