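import Vale.Agent.P159.TM.Spec.I
import Vale.Agent.P159.TM.H574.Path

/-!
Literal statements of row I574 (UV mass harmless) in the letters of `Spec/I.lean`.
-/

namespace Vale.Agent.P159.TM.H574

open Finset Vale.Agent.P159.TM.SpecI

/-- the square `[p₁, p₁ + s) × [p₂, p₂ + s)` of the box -/
def bx {n : ℕ} [NeZero n] (p : ℕ × ℕ) (s : ℕ) : Finset (V n) :=
  univ.filter fun x => p.1 ≤ x.1.val ∧ x.1.val < p.1 + s ∧ p.2 ≤ x.2.val ∧ x.2.val < p.2 + s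

/-- the edges inside this square -/
def eb {n : ℕ} [NeZero n] (p : ℕ × ℕ) (s : ℕ) : Finset (V n × Bool) :=
  (inn n).filter fun e => e.1 ∈ bx p s ∧ tgt e ∈ bx p s

/-- the corner of the square -/
def cnr {n : ℕ} [NeZero n] (p : ℕ × ℕ) : V n := ((p.1 : ZMod n), (p.2 : ZMod n))

/-- child cell average minus parent cell average: `c` is a cell of side `q`, its parent `c / 2` has
side `2 q` -/
noncomputable def Dc {n : ℕ} (q : ℕ) (c : ℕ × ℕ) (h : V n → ℤ) : ℝ :=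
  avg q c h - avg (2 * q) (c.1 / 2, c.2 / 2) h

/-- (IDWI) pure model, no mass: free against zero boundary conditions of a square of side
`(2 m + 1) r` for neutral functionals on its central cell of side `r` -/
def IDWI (b : ℝ) : Prop :=
  ∃ C c : ℝ, 0 < C ∧ 0 < c ∧ ∀ (n : ℕ) [NeZero n] (r m : ℕ) (p : ℕ × ℕ), 2 ≤ r → 1 ≤ m →
    1 ≤ p.1 → 1 ≤ p.2 → p.1 + (2 * m + 1) * r + 1 ≤ n → p.2 + (2 * m + 1) * r + 1 ≤ n →
    ∀ g : V n → ℝ, ∑ x, g x = 0 → (∀ x, x ∉ bx (p.1 + m * r, p.2 + m * r) r → g x = 0) →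
      (∀ x, |g x| ≤ 1 / (r : ℝ) ^ 2) →
      ex b (eb p ((2 * m + 1) * r)) ((bx p ((2 * m + 1) * r))ᶜ ∪ {cnr p}) (fun _ => 0)
          (fun h => pr g h ^ 2) -
        ex b (inn n) (bx p ((2 * m + 1) * r))ᶜ (fun _ => 0) (fun h => pr g h ^ 2) ≤
      C * (m : ℝ) ^ (-c)

/-- (MOM4) fourth moments along the mass path from level `j` to level `j + 1` -/
def MOM4 (b : ℝ) : Prop :=
  ∀ κ : ℝ, 0 < κ → ∃ C : ℝ, 0 < C ∧ ∀ k j : ℕ, j + 1 ≤ k → ∀ t : ℝ, 0 ≤ t → t ≤ 1 →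
    ∀ φ : V (2 ^ k) → ℝ, (∀ x, |φ x| ≤ 1 / 4 ^ k) →
      ex b (inn (2 ^ k)) ∅ (fun h => (1 - t) * massA κ k j h + t * massA κ k (j + 1) h)
        (fun h => pr φ h ^ 4) ≤ C

/-- (CRUDE) second moments of child minus parent -/
def CRUDE (b : ℝ) : Prop :=
  ∀ κ : ℝ, 0 < κ → ∃ C : ℝ, 0 < C ∧ ∀ k j : ℕ, j + 1 ≤ k → ∀ c : ℕ × ℕ,
    c.1 < 2 ^ (j + 1) → c.2 < 2 ^ (j + 1) →
      exA b κ k j (fun h => Dc (2 ^ (k - (j + 1))) c h ^ 2) ≤ C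

/-- (MUV) the mean energy of a cell of level `j + 1` changes little when the mass of this level is
added, if the cell is at distance `≥ (m + 1)` parent cells from the boundary, `m = 2 ^ (j / 3)` -/
def MUV (b : ℝ) : Prop :=
  ∀ κ : ℝ, 0 < κ → ∃ C c : ℝ, 0 < C ∧ 0 < c ∧ ∀ k j : ℕ, j + 1 ≤ k → ∀ d : ℕ × ℕ,
    2 ^ (j / 3) + 1 ≤ d.1 / 2 → 2 ^ (j / 3) + 1 ≤ d.2 / 2 →
    d.1 / 2 + 2 ^ (j / 3) + 2 ≤ 2 ^ j → d.2 / 2 + 2 ^ (j / 3) + 2 ≤ 2 ^ j →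
      exA b κ k j (fun h => Dc (2 ^ (k - (j + 1))) d h ^ 2) -
        exA b κ k (j + 1) (fun h => Dc (2 ^ (k - (j + 1))) d h ^ 2) ≤
      C * (2 : ℝ) ^ (-(c * j))

end Vale.Agent.P159.TM.H574
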