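import Vale.Agent.P159.TM.H574.Cmp

/-!
Assembly of row I574: `MUV b → CRUDE b → MOM4 b → UV b`.
-/

open Filter Topology

namespace Vale.Agent.P159.TM.H574

open Vale.Agent.P159.TM.H22 (SG Gle lin)
open Vale.Agent.P159.TM.SpecI
open Finset

lemma SQ.gr {U : Type} [Fintype U] {M : (U → ℤ) → ℝ} (hM : SQ M) : H22.Gr M := by
  classical
  obtain ⟨ι, t, v, ρ, hv, he⟩ := hM
  have : ∀ t : Finset ι, H22.Gr fun h : U → ℤ => ∑ i ∈ t, v i * lin (ρ i) h ^ 2 := by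
    intro t
    induction t using Finset.induction_on with
    | empty => simpa using H22.Gr.const (V := U) 0
    | insert a t ha ih =>
      have e : (fun h : U → ℤ => ∑ i ∈ insert a t, v i * lin (ρ i) h ^ 2) =
          fun h => v a * lin (ρ a) h ^ 2 + ∑ i ∈ t, v i * lin (ρ i) h ^ 2 := by
        funext h
        rw [sum_insert ha]
      rw [e]
      exact ((gr_sq (ρ a)).const_mul (v a)).add ih
  have e : M = fun h => ∑ i ∈ t, v i * lin (ρ i) h ^ 2 := funext he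
  rw [e]
  exact this t

section base

variable {b κ : ℝ} {k j : ℕ}

lemma sgA (hb : 0 ≤ b) (hκ : 0 < κ) (hj : j ≤ k) : SG (wt b (inn (2 ^ k)) ∅ (massA κ k j)) :=
  sg_wt hb (sq_massA κ k j).nonneg (sq_massA κ k j).even (coe_massA hκ hj)

/-- the path of measures -/
lemma Et_eq (b κ : ℝ) (k j : ℕ) (F : (V (2 ^ k) → ℤ) → ℝ) (t : ℝ) :
    Et (wt b (inn (2 ^ k)) ∅ (massA κ k j)) (Qd κ k j) F t =
      ex b (inn (2 ^ k)) ∅ (fun h => massA κ k j h + t * Qd κ k j h) F := by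
  have e : ∀ h, wt b (inn (2 ^ k)) ∅ (fun h => massA κ k j h + t * Qd κ k j h) h =
      wt b (inn (2 ^ k)) ∅ (massA κ k j) h * Real.exp (-(t / 2) * Qd κ k j h) := by
    intro h
    unfold wt
    rw [show -(massA κ k j h + t * Qd κ k j h) / 2 =
      -(massA κ k j h) / 2 + -(t / 2) * Qd κ k j h by ring, Real.exp_add]
    ring
  unfold Et At ex
  congr 1
  · exact tsum_congr fun h => by rw [e]; ring
  · exact tsum_congr fun h => by rw [e]; ring

lemma Et_zero (b κ : ℝ) (k j : ℕ) (F : (V (2 ^ k) → ℤ) → ℝ) :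
    Et (wt b (inn (2 ^ k)) ∅ (massA κ k j)) (Qd κ k j) F 0 = exA b κ k j F := by
  rw [Et_eq]
  unfold exA
  congr 1
  funext h
  ring

lemma Et_one (b κ : ℝ) (hj : j + 1 ≤ k) (F : (V (2 ^ k) → ℤ) → ℝ) :
    Et (wt b (inn (2 ^ k)) ∅ (massA κ k j)) (Qd κ k j) F 1 = exA b κ k (j + 1) F := by
  rw [Et_eq]
  unfold exA
  congr 1
  funext h
  rw [massA_succ κ hj]
  ring

/-- **one step of the mass path** -/
theorem step (hb : 0 ≤ b) (hκ : 0 < κ) (hj : j + 1 ≤ k) {φ : V (2 ^ k) → ℝ} {C D : ℝ}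
    (hC : ∀ t : ℝ, 0 ≤ t → t ≤ 1 →
      ex b (inn (2 ^ k)) ∅ (fun h => (1 - t) * massA κ k j h + t * massA κ k (j + 1) h)
        (fun h => pr φ h ^ 4) ≤ C)
    (hC0 : 0 ≤ C)
    (hD : exA b κ k j (Qd κ k j) - exA b κ k (j + 1) (Qd κ k j) ≤ D) :
    exA b κ k j (fun h => pr φ h ^ 2) - exA b κ k (j + 1) (fun h => pr φ h ^ 2) ≤
      √C * √(D / 2) := by
  have sg := sgA (b := b) (κ := κ) hb hκ (show j ≤ k by omega)
  have gQ := (sq_Qd κ k j).gr
  have hs : Summable (wt b (inn (2 ^ k)) ∅ (massA κ k j)) :=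
    (sg.sum (H22.Gr.const (1 : ℝ))).congr fun h => mul_one _
  have h0 : ∃ x, 0 < wt b (inn (2 ^ k)) ∅ (massA κ k j) x := ⟨0, wt_zero_pos hb _ _ _⟩
  have g2 : H22.Gr fun h : V (2 ^ k) → ℤ => pr φ h ^ 2 := gr_sq φ
  have hF : Summable fun h => wt b (inn (2 ^ k)) ∅ (massA κ k j) h * (pr φ h ^ 2) ^ 2 :=
    (sg.sum (g2.mul g2)).congr fun h => by ring
  have hQ2 : Summable fun h => wt b (inn (2 ^ k)) ∅ (massA κ k j) h * (Qd κ k j h) ^ 2 :=
    (sg.sum (gQ.mul gQ)).congr fun h => by ring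
  have h1 := path (w := wt b (inn (2 ^ k)) ∅ (massA κ k j)) (Q := Qd κ k j)
    (F := fun h => pr φ h ^ 2) (S := √C) sg.nonneg (Qd_nonneg κ k j) hs h0 hF hQ2
    (Real.sqrt_nonneg C) (by
      intro t ht
      rw [Real.sq_sqrt hC0]
      unfold Ct
      have h2 := hC t ht.1 ht.2
      have e1 : Et (wt b (inn (2 ^ k)) ∅ (massA κ k j)) (Qd κ k j)
          (fun x => pr φ x ^ 2 * pr φ x ^ 2) t =
          ex b (inn (2 ^ k)) ∅ (fun h => (1 - t) * massA κ k j h + t * massA κ k (j + 1) h)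
            (fun h => pr φ h ^ 4) := by
        rw [Et_eq]
        congr 1
        · funext h
          rw [massA_succ κ hj]
          ring
        · funext h
          ring
      rw [e1]
      have := mul_self_nonneg (Et (wt b (inn (2 ^ k)) ∅ (massA κ k j)) (Qd κ k j)
        (fun h => pr φ h ^ 2) t)
      linarith)
  rw [Et_zero, Et_one b κ hj, Et_zero, Et_one b κ hj] at h1
  refine (le_abs_self _).trans (h1.trans ?_)
  refine mul_le_mul_of_nonneg_left (Real.sqrt_le_sqrt ?_) (Real.sqrt_nonneg C)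
  linarith

/-- mean energies -/
lemma exA_Qd (hb : 0 ≤ b) (hκ : 0 < κ) {i : ℕ} (hi : i ≤ k) :
    exA b κ k i (Qd κ k j) = κ ^ 2 / 4 ^ (j + 1) *
      ∑ c ∈ range (2 ^ (j + 1)) ×ˢ range (2 ^ (j + 1)),
        exA b κ k i (fun h => Dc (2 ^ (k - (j + 1))) c h ^ 2) := by
  have sg := sgA (b := b) (κ := κ) hb hκ hi
  have gD : ∀ c : ℕ × ℕ, H22.Gr fun h : V (2 ^ k) → ℤ => Dc (2 ^ (k - (j + 1))) c h ^ 2 :=
    fun c => by
      simp only [Dc_lin]
      exact gr_sq _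
  unfold exA
  simp only [ex_eq]
  rw [← sum_div, ← mul_div_assoc]
  congr 1
  unfold H22.MM
  rw [← Summable.tsum_finsetSum fun c _ => sg.sum (gD c), ← tsum_mul_left]
  refine tsum_congr fun h => ?_
  unfold Qd
  rw [← mul_sum]
  ring

lemma exA_nonneg (hb : 0 ≤ b) {F : (V (2 ^ k) → ℤ) → ℝ} (hF : ∀ h, 0 ≤ F h) :
    0 ≤ exA b κ k j F := by
  unfold exA ex
  exact div_nonneg (tsum_nonneg fun h => mul_nonneg (wt_nonneg hb _ _ _ h) (hF h))
    (tsum_nonneg fun h => wt_nonneg hb _ _ _ h)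

end base

/-! ### counting the cells near the boundary -/

/-- far from the boundary in one coordinate -/
def Ok (j x : ℕ) : Prop := 2 ^ (j / 3) + 1 ≤ x / 2 ∧ x / 2 + 2 ^ (j / 3) + 2 ≤ 2 ^ j

instance (j x : ℕ) : Decidable (Ok j x) := by unfold Ok; infer_instance

lemma card_bad (j : ℕ) :
    ((range (2 ^ (j + 1))).filter fun x => ¬ Ok j x).card ≤ 8 * 2 ^ (j / 3) := by
  set m := 2 ^ (j / 3) with hm
  have hm1 : 1 ≤ m := Nat.one_le_two_pow
  have h1 : (range (2 ^ (j + 1))).filter (fun x => ¬ Ok j x) ⊆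
      range (2 * m + 2) ∪ Ico (2 ^ (j + 1) - (2 * m + 2)) (2 ^ (j + 1)) := by
    intro x hx
    rw [mem_filter, mem_range] at hx
    obtain ⟨h2, h3⟩ := hx
    rw [mem_union, mem_range, mem_Ico]
    unfold Ok at h3
    rw [← hm] at h3
    have h4 : 2 ^ (j + 1) = 2 * 2 ^ j := pow_succ' 2 j
    omega
  refine (card_le_card h1).trans ((card_union_le _ _).trans ?_)
  rw [card_range, Nat.card_Ico]
  omega

lemma card_bad2 (j : ℕ) :
    ((range (2 ^ (j + 1)) ×ˢ range (2 ^ (j + 1))).filter fun c =>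
      ¬ (Ok j c.1 ∧ Ok j c.2)).card ≤ 2 * (2 ^ (j + 1) * (8 * 2 ^ (j / 3))) := by
  have h1 : (range (2 ^ (j + 1)) ×ˢ range (2 ^ (j + 1))).filter
      (fun c => ¬ (Ok j c.1 ∧ Ok j c.2)) ⊆
      (((range (2 ^ (j + 1))).filter fun x => ¬ Ok j x) ×ˢ range (2 ^ (j + 1))) ∪
        (range (2 ^ (j + 1)) ×ˢ ((range (2 ^ (j + 1))).filter fun x => ¬ Ok j x)) := by
    intro c hc
    rw [mem_filter, mem_product] at hc
    rw [mem_union, mem_product, mem_product, mem_filter, mem_filter]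
    tauto
  refine (card_le_card h1).trans ((card_union_le _ _).trans ?_)
  rw [card_product, card_product, card_range]
  have h2 := card_bad j
  have h3 := Nat.mul_le_mul_left (2 ^ (j + 1)) h2
  have h4 := mul_comm ((range (2 ^ (j + 1))).filter fun x => ¬ Ok j x).card (2 ^ (j + 1))
  omega

/-- decrease of the mean energy at one level -/
lemma mean_le {b κ : ℝ} (hb : 0 ≤ b) (hκ : 0 < κ) {k j : ℕ} (hj : j + 1 ≤ k) {C₁ e C₂ : ℝ}
    (hC₂ : 0 ≤ C₂) (he : 0 ≤ e)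
    (h1 : ∀ d : ℕ × ℕ, 2 ^ (j / 3) + 1 ≤ d.1 / 2 → 2 ^ (j / 3) + 1 ≤ d.2 / 2 →
      d.1 / 2 + 2 ^ (j / 3) + 2 ≤ 2 ^ j → d.2 / 2 + 2 ^ (j / 3) + 2 ≤ 2 ^ j →
      exA b κ k j (fun h => Dc (2 ^ (k - (j + 1))) d h ^ 2) -
        exA b κ k (j + 1) (fun h => Dc (2 ^ (k - (j + 1))) d h ^ 2) ≤ C₁ * e)
    (hC₁ : 0 ≤ C₁)
    (h2 : ∀ c : ℕ × ℕ, c.1 < 2 ^ (j + 1) → c.2 < 2 ^ (j + 1) →
      exA b κ k j (fun h => Dc (2 ^ (k - (j + 1))) c h ^ 2) ≤ C₂) :
    exA b κ k j (Qd κ k j) - exA b κ k (j + 1) (Qd κ k j) ≤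
      κ ^ 2 * (C₁ * e + 8 * C₂ * (2 ^ (j / 3) / 2 ^ j)) := by
  rw [exA_Qd hb hκ (by omega : j ≤ k), exA_Qd hb hκ hj, ← mul_sub, ← sum_sub_distrib]
  set S := range (2 ^ (j + 1)) ×ˢ range (2 ^ (j + 1)) with hS
  have h3 : ∑ c ∈ S, (exA b κ k j (fun h => Dc (2 ^ (k - (j + 1))) c h ^ 2) -
      exA b κ k (j + 1) (fun h => Dc (2 ^ (k - (j + 1))) c h ^ 2)) ≤
      ∑ c ∈ S, (C₁ * e + if ¬ (Ok j c.1 ∧ Ok j c.2) then C₂ else 0) := by
    refine sum_le_sum fun c hc => ?_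
    rw [hS, mem_product, mem_range, mem_range] at hc
    by_cases h4 : Ok j c.1 ∧ Ok j c.2
    · rw [if_neg (not_not.2 h4)]
      have := h1 c h4.1.1 h4.2.1 h4.1.2 h4.2.2
      linarith
    · rw [if_pos h4]
      have h5 := h2 c hc.1 hc.2
      have h6 : 0 ≤ exA b κ k (j + 1) (fun h => Dc (2 ^ (k - (j + 1))) c h ^ 2) :=
        exA_nonneg hb fun _ => sq_nonneg _
      have := mul_nonneg hC₁ he
      linarith
  have h4 : ∑ c ∈ S, (C₁ * e + if ¬ (Ok j c.1 ∧ Ok j c.2) then C₂ else 0) ≤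
      4 ^ (j + 1) * (C₁ * e) + (2 * (2 ^ (j + 1) * (8 * 2 ^ (j / 3)))) * C₂ := by
    rw [sum_add_distrib, sum_const, ← sum_filter, sum_const, nsmul_eq_mul, nsmul_eq_mul]
    refine add_le_add (le_of_eq ?_) ?_
    · rw [hS, card_product, card_range]
      push_cast
      rw [← mul_pow]
      norm_num
    · refine mul_le_mul_of_nonneg_right ?_ hC₂
      have := card_bad2 j
      rw [← hS] at this
      exact_mod_cast this
  refine (mul_le_mul_of_nonneg_left (h3.trans h4) (by positivity)).trans_eq ?_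
  have e1 : (4 : ℝ) ^ (j + 1) = 2 ^ (j + 1) * 2 ^ (j + 1) := by
    rw [← mul_pow]
    norm_num
  have e2 : (2 : ℝ) ^ (j + 1) = 2 * 2 ^ j := pow_succ' 2 j
  rw [e1, e2]
  have : (2 : ℝ) ^ j ≠ 0 := by positivity
  field_simp

/-- **Row I574**: the UV mass is harmless. -/
theorem uv_of {b : ℝ} (hb : 0 ≤ b) (hM : MUV b) (hC : CRUDE b) (h4 : MOM4 b) : UV b := by
  intro κ hκ
  obtain ⟨C₁, c₁, hC₁, hc₁, hM⟩ := hM κ hκ
  obtain ⟨C₂, hC₂, hC⟩ := hC κ hκ
  obtain ⟨C₄, hC₄, h4⟩ := h4 κ hκ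
  set c' : ℝ := min c₁ (1 / 2) with hc'
  have hc'0 : 0 < c' := lt_min hc₁ (by norm_num)
  set ρ : ℝ := (2 : ℝ) ^ (-(c' / 2)) with hρ
  have hρ0 : 0 < ρ := Real.rpow_pos_of_pos (by norm_num) _
  have hρ1 : ρ < 1 := Real.rpow_lt_one_of_one_lt_of_neg (by norm_num) (by linarith)
  have hρj : ∀ j : ℕ, ρ ^ j = (2 : ℝ) ^ (-(c' / 2 * j)) := by
    intro j
    rw [hρ, ← Real.rpow_natCast, ← Real.rpow_mul (by norm_num)]
    congr 1
    ring
  have hρ2 : ∀ j : ℕ, (2 : ℝ) ^ (-(c' * j)) = (ρ ^ j) ^ 2 := by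
    intro j
    rw [hρj, ← Real.rpow_natCast, ← Real.rpow_mul (by norm_num)]
    congr 1
    push_cast
    ring
  set K : ℝ := √C₄ * √(κ ^ 2 * (C₁ + 8 * C₂) / 2) with hK
  have hK0 : 0 ≤ K := by positivity
  refine ⟨K / (1 - ρ) + 1, c' / 2, by have := sub_pos.2 hρ1; positivity, by positivity, ?_⟩
  intro k a hak φ hφ
  have hstep : ∀ j : ℕ, j + 1 ≤ k → exA b κ k j (fun h => pr φ h ^ 2) -
      exA b κ k (j + 1) (fun h => pr φ h ^ 2) ≤ K * ρ ^ j := by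
    intro j hj
    have h5 := mean_le hb hκ hj (e := (2 : ℝ) ^ (-(c₁ * j))) hC₂.le (by positivity)
      (fun d => hM k j hj d) hC₁.le (fun c => hC k j hj c)
    have h6 : κ ^ 2 * (C₁ * (2 : ℝ) ^ (-(c₁ * j)) + 8 * C₂ * (2 ^ (j / 3) / 2 ^ j)) ≤
        κ ^ 2 * (C₁ + 8 * C₂) * (ρ ^ j) ^ 2 := by
      have e1 : (2 : ℝ) ^ (-(c₁ * j)) ≤ (ρ ^ j) ^ 2 := by
        rw [← hρ2]
        refine Real.rpow_le_rpow_of_exponent_le (by norm_num) ?_
        have := mul_le_mul_of_nonneg_right (min_le_left c₁ (1 / 2)) (Nat.cast_nonneg (α := ℝ) j)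
        rw [← hc'] at this
        linarith
      have e2 : (2 : ℝ) ^ (j / 3) / 2 ^ j ≤ (ρ ^ j) ^ 2 := by
        rw [← hρ2, ← Real.rpow_natCast, ← Real.rpow_natCast, ← Real.rpow_sub (by norm_num)]
        refine Real.rpow_le_rpow_of_exponent_le (by norm_num) ?_
        have h7 := mul_le_mul_of_nonneg_right (min_le_right c₁ (1 / 2))
          (Nat.cast_nonneg (α := ℝ) j)
        rw [← hc'] at h7
        have h8 : ((j / 3 : ℕ) : ℝ) ≤ (j : ℝ) / 3 := by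
          have := Nat.cast_div_le (α := ℝ) (m := j) (n := 3)
          simpa using this
        have h9 : (0 : ℝ) ≤ j := Nat.cast_nonneg j
        linarith
      have h9 : 0 ≤ κ ^ 2 := sq_nonneg κ
      calc κ ^ 2 * (C₁ * (2 : ℝ) ^ (-(c₁ * j)) + 8 * C₂ * (2 ^ (j / 3) / 2 ^ j)) ≤
            κ ^ 2 * (C₁ * (ρ ^ j) ^ 2 + 8 * C₂ * (ρ ^ j) ^ 2) := by
            refine mul_le_mul_of_nonneg_left (add_le_add ?_ ?_) h9
            · exact mul_le_mul_of_nonneg_left e1 hC₁.le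
            · exact mul_le_mul_of_nonneg_left e2 (by positivity)
        _ = _ := by ring
    have h7 := step hb hκ hj (φ := φ) (C := C₄) (D := κ ^ 2 * (C₁ + 8 * C₂) * (ρ ^ j) ^ 2)
      (fun t ht ht1 => h4 k j hj t ht ht1 φ hφ) hC₄.le (h5.trans h6)
    refine h7.trans_eq ?_
    have e3 : κ ^ 2 * (C₁ + 8 * C₂) * (ρ ^ j) ^ 2 / 2 =
        (κ ^ 2 * (C₁ + 8 * C₂) / 2) * (ρ ^ j) ^ 2 := by ring
    rw [e3, Real.sqrt_mul (by positivity), Real.sqrt_sq (by positivity), hK]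
    ring
  have htel : ∀ d : ℕ, a + d ≤ k → exA b κ k a (fun h => pr φ h ^ 2) -
      exA b κ k (a + d) (fun h => pr φ h ^ 2) ≤ K / (1 - ρ) * ρ ^ a * (1 - ρ ^ d) := by
    intro d
    induction d with
    | zero => intro _; simp
    | succ d ih =>
      intro hd
      have h8 := ih (by omega)
      have h9 := hstep (a + d) (by omega)
      have e : K / (1 - ρ) * ρ ^ a * (1 - ρ ^ (d + 1)) =
          K / (1 - ρ) * ρ ^ a * (1 - ρ ^ d) + K * ρ ^ (a + d) := by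
        have : 1 - ρ ≠ 0 := (sub_pos.2 hρ1).ne'
        field_simp
        ring
      rw [e, show a + (d + 1) = a + d + 1 by ring]
      linarith
  have h10 := htel (k - a) (by omega)
  rw [show a + (k - a) = k by omega] at h10
  have hF : exF b κ k (fun h => pr φ h ^ 2) = exA b κ k k (fun h => pr φ h ^ 2) := by
    unfold exF exA
    congr 1
    funext h
    exact massA_full κ k h
  rw [hF, ← hρj]
  have h11 : K / (1 - ρ) * ρ ^ a * (1 - ρ ^ (k - a)) ≤ (K / (1 - ρ) + 1) * ρ ^ a := by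
    have hd : 0 ≤ K / (1 - ρ) := div_nonneg hK0 (sub_pos.2 hρ1).le
    have hp : 0 < ρ ^ (k - a) := by positivity
    have hq : 0 < ρ ^ a := by positivity
    nlinarith [mul_nonneg (mul_nonneg hd hq.le) hp.le]
  linarith

end Vale.Agent.P159.TM.H574
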