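import Vale.Agent.P159.TM.H574.Stmt
import Vale.Agent.P159.TM.H574.Nice
import Vale.Agent.P159.TM.H129.Bare

/-!
The weights `wt b es X Q` of `Spec/I.lean` as Ginibre weights.
-/

open Filter Topology

namespace Vale.Agent.P159.TM.H574

open Vale.Agent.P159 Vale.Agent.P159.T1.H934
open Vale.Agent.P159.H353 (wI wI_nonneg wI_neg wI_zero_pos)
open Vale.Agent.P159.TM.H22 (SG Gle lin nn_nonneg nn_neg lin_add lin_sub)
open Vale.Agent.P159.TM.H708 (PD iX)
open Vale.Agent.P159.TM.SpecI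

/-! ### sums of squares -/

section sq

variable {U : Type} [Fintype U]

/-- finite sums of squares of linear functionals -/
def SQ (Q : (U → ℤ) → ℝ) : Prop :=
  ∃ (ι : Type) (s : Finset ι) (v : ι → ℝ) (ρ : ι → U → ℝ), (∀ i ∈ s, 0 ≤ v i) ∧
    ∀ h, Q h = ∑ i ∈ s, v i * lin (ρ i) h ^ 2

lemma SQ.nonneg {Q : (U → ℤ) → ℝ} (hQ : SQ Q) (h : U → ℤ) : 0 ≤ Q h := by
  obtain ⟨ι, s, v, ρ, hv, he⟩ := hQ
  rw [he]
  exact Finset.sum_nonneg fun i hi => mul_nonneg (hv i hi) (sq_nonneg _)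

lemma SQ.even {Q : (U → ℤ) → ℝ} (hQ : SQ Q) (h : U → ℤ) : Q (-h) = Q h := by
  obtain ⟨ι, s, v, ρ, hv, he⟩ := hQ
  rw [he, he]
  exact Finset.sum_congr rfl fun i _ => by rw [H22.lin_neg, neg_sq]

lemma SQ.par {Q : (U → ℤ) → ℝ} (hQ : SQ Q) (x y : U → ℤ) :
    Q (x + y) + Q (x - y) = 2 * Q x + 2 * Q y := by
  obtain ⟨ι, s, v, ρ, hv, he⟩ := hQ
  rw [he, he, he, he, ← Finset.sum_add_distrib, Finset.mul_sum, Finset.mul_sum,
    ← Finset.sum_add_distrib]
  exact Finset.sum_congr rfl fun i _ => by rw [lin_add, lin_sub]; ring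

lemma SQ.pd {Q : (U → ℤ) → ℝ} (hQ : SQ Q) : PD fun h => Real.exp (-(Q h / 2)) := by
  obtain ⟨ι, s, v, ρ, hv, he⟩ := hQ
  have h1 := PD.prod (V := U) s (ψ := fun i h => Real.exp (-(v i * (H708.lf (ρ i) h) ^ 2 / 2)))
    fun i hi => PD.gauss (hv i hi) (ρ i)
  have e : (fun h : U → ℤ => ∏ i ∈ s, Real.exp (-(v i * (H708.lf (ρ i) h) ^ 2 / 2))) =
      fun h => Real.exp (-(Q h / 2)) := by
    funext h
    rw [← Real.exp_sum, he, Finset.sum_neg_distrib, Finset.sum_div]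
    rfl
  rwa [e] at h1

lemma SQ.one {v : ℝ} (hv : 0 ≤ v) (ρ : U → ℝ) : SQ fun h => v * lin ρ h ^ 2 :=
  ⟨Unit, {()}, fun _ => v, fun _ => ρ, fun _ _ => hv, fun h => by simp⟩

lemma SQ.zero : SQ (fun _ : U → ℤ => 0) :=
  ⟨Unit, ∅, fun _ => 0, fun _ => 0, fun _ _ => le_rfl, fun h => by simp⟩

lemma SQ.add {Q R : (U → ℤ) → ℝ} (hQ : SQ Q) (hR : SQ R) : SQ fun h => Q h + R h := by
  obtain ⟨ι, s, v, ρ, hv, he⟩ := hQ
  obtain ⟨ι', s', v', ρ', hv', he'⟩ := hR
  refine ⟨ι ⊕ ι', s.disjSum s', Sum.elim v v', Sum.elim ρ ρ', fun i hi => ?_, fun h => ?_⟩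
  · rcases i with i | i
    · exact hv i (Finset.inl_mem_disjSum.1 hi)
    · exact hv' i (Finset.inr_mem_disjSum.1 hi)
  · simp only
    rw [he, he', Finset.sum_disjSum]
    rfl

lemma SQ.smul {Q : (U → ℤ) → ℝ} (hQ : SQ Q) {c : ℝ} (hc : 0 ≤ c) : SQ fun h => c * Q h := by
  obtain ⟨ι, s, v, ρ, hv, he⟩ := hQ
  refine ⟨ι, s, fun i => c * v i, ρ, fun i hi => mul_nonneg hc (hv i hi), fun h => ?_⟩
  simp only
  rw [he, Finset.mul_sum]
  exact Finset.sum_congr rfl fun i _ => by ring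

lemma SQ.sum {ι : Type} (s : Finset ι) {v : ι → ℝ} (hv : ∀ i ∈ s, 0 ≤ v i) (ρ : ι → U → ℝ) :
    SQ fun h => ∑ i ∈ s, v i * lin (ρ i) h ^ 2 := ⟨ι, s, v, ρ, hv, fun _ => rfl⟩

lemma SQ.congr {Q R : (U → ℤ) → ℝ} (hQ : SQ Q) (h : ∀ x, R x = Q x) : SQ R := by
  obtain ⟨ι, s, v, ρ, hv, he⟩ := hQ
  exact ⟨ι, s, v, ρ, hv, fun x => by rw [h, he]⟩

end sq

/-! ### the weights -/

section wts

variable {n : ℕ} [NeZero n]

/-- the gradient along the edges of `es` -/
def Dg (es : Finset (V n × Bool)) : (V n → ℤ) →+ (es → ℤ) where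
  toFun h e := h (tgt e.1) - h e.1.1
  map_zero' := by funext e; simp
  map_add' x y := by funext e; simp only [Pi.add_apply]; ring

omit [NeZero n] in
lemma wt_eq (b : ℝ) (es : Finset (V n × Bool)) (X : Finset (V n)) (Q : (V n → ℤ) → ℝ)
    (h : V n → ℤ) : wt b es X Q h =
      W (Dg es) (fun _ => b) h * (iX (X : Set (V n)) h * Real.exp (-(Q h / 2))) := by
  classical
  unfold wt W iX
  have e1 : ∏ e ∈ es, wI b (h (tgt e) - h e.1) = ∏ e : es, wI b (Dg es h e) :=
    (Finset.prod_coe_sort es fun e => wI b (h (tgt e) - h e.1)).symm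
  rw [e1, neg_div]
  simp only [Finset.mem_coe]
  split_ifs <;> ring

omit [NeZero n] in
lemma wt_nonneg {b : ℝ} (hb : 0 ≤ b) (es : Finset (V n × Bool)) (X : Finset (V n))
    (Q : (V n → ℤ) → ℝ) (h : V n → ℤ) : 0 ≤ wt b es X Q h := by
  classical
  unfold wt
  refine mul_nonneg (mul_nonneg (by split_ifs <;> norm_num) ?_) (Real.exp_pos _).le
  exact Finset.prod_nonneg fun e _ => wI_nonneg hb _

/-- total variation along the edges -/
noncomputable def Tv (es : Finset (V n × Bool)) (h : V n → ℤ) : ℝ :=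
  ∑ e ∈ es, |((h (tgt e) - h e.1 : ℤ) : ℝ)|

omit [NeZero n] in
lemma Tv_nonneg (es : Finset (V n × Bool)) (h : V n → ℤ) : 0 ≤ Tv es h :=
  Finset.sum_nonneg fun _ _ => abs_nonneg _

/-- coercivity -/
def Coe (es : Finset (V n × Bool)) (X : Finset (V n)) (Q : (V n → ℤ) → ℝ) : Prop :=
  ∃ A : ℝ, 0 ≤ A ∧ ∀ h : V n → ℤ, (∀ x ∈ X, h x = 0) → ∀ x, |(h x : ℝ)| ≤ A * (Tv es h + √(Q h))

omit [NeZero n] in
lemma Coe.mono {es es' : Finset (V n × Bool)} {X X' : Finset (V n)} {Q Q' : (V n → ℤ) → ℝ}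
    (h : Coe es X Q) (he : es ⊆ es') (hX : X ⊆ X') (hQ : ∀ h, Q h ≤ Q' h) : Coe es' X' Q' := by
  obtain ⟨A, hA, hb⟩ := h
  refine ⟨A, hA, fun h hh x => (hb h (fun y hy => hh y (hX hy)) x).trans ?_⟩
  refine mul_le_mul_of_nonneg_left (add_le_add ?_ (Real.sqrt_le_sqrt (hQ h))) hA
  exact Finset.sum_le_sum_of_subset_of_nonneg he fun _ _ _ => abs_nonneg _

lemma wI_le {b : ℝ} (hb : 0 ≤ b) (c : ℝ) (k : ℤ) :
    wI b k ≤ Real.exp (b * Real.cosh c) * Real.exp (-(c * |(k : ℝ)|)) := by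
  rcases le_total 0 (k : ℝ) with hk | hk
  · rw [abs_of_nonneg hk]
    have := H129.wI_exp_le hb c k
    rw [Real.exp_neg, ← div_eq_mul_inv, le_div_iff₀ (Real.exp_pos _)]
    exact this
  · rw [abs_of_nonpos hk]
    have := H129.wI_exp_le hb (-c) k
    rw [Real.cosh_neg] at this
    rw [Real.exp_neg, ← div_eq_mul_inv, le_div_iff₀ (Real.exp_pos _)]
    rw [show c * -(k : ℝ) = -c * k by ring]
    exact this

omit [NeZero n] in
lemma prod_wI_le {b : ℝ} (hb : 0 ≤ b) (es : Finset (V n × Bool)) (c : ℝ) (h : V n → ℤ) :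
    ∏ e ∈ es, wI b (h (tgt e) - h e.1) ≤
      Real.exp (b * Real.cosh c) ^ es.card * Real.exp (-(c * Tv es h)) := by
  calc ∏ e ∈ es, wI b (h (tgt e) - h e.1) ≤
        ∏ e ∈ es, (Real.exp (b * Real.cosh c) *
          Real.exp (-(c * |((h (tgt e) - h e.1 : ℤ) : ℝ)|))) :=
        Finset.prod_le_prod (fun e _ => wI_nonneg hb _) fun e _ => wI_le hb c _
    _ = _ := by
        rw [Finset.prod_mul_distrib, Finset.prod_const, ← Real.exp_sum]
        congr 2
        unfold Tv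
        rw [Finset.mul_sum, Finset.sum_neg_distrib]

/-- all exponential moments -/
theorem sg_wt {b : ℝ} (hb : 0 ≤ b) {es : Finset (V n × Bool)} {X : Finset (V n)}
    {Q : (V n → ℤ) → ℝ} (hQ : ∀ h, 0 ≤ Q h) (hQe : ∀ h, Q (-h) = Q h) (hc : Coe es X Q) :
    SG (wt b es X Q) := by
  classical
  refine sg_of_le (wt_nonneg hb es X Q) (fun h => ?_) fun c hc0 => ?_
  · unfold wt
    rw [hQe]
    congr 1
    congr 1
    · have : (∀ x ∈ X, (-h) x = 0) ↔ ∀ x ∈ X, h x = 0 := by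
        simp only [Pi.neg_apply, neg_eq_zero]
      by_cases h1 : ∀ x ∈ X, h x = 0
      · rw [if_pos h1, if_pos (this.2 h1)]
      · rw [if_neg h1, if_neg (fun h2 => h1 (this.1 h2))]
    · refine Finset.prod_congr rfl fun e _ => ?_
      rw [← wI_neg]
      congr 1
      simp only [Pi.neg_apply]
      ring
  · obtain ⟨A, hA, hb2⟩ := hc
    set c' : ℝ := c * (Fintype.card (V n) * A) with hc'
    have hc'0 : 0 ≤ c' := by positivity
    refine ⟨Real.exp (b * Real.cosh c') ^ es.card * Real.exp (c' ^ 2 / 2), fun h => ?_⟩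
    by_cases hX : ∀ x ∈ X, h x = 0
    · have h1 : c * H22.nn h ≤ c' * (Tv es h + √(Q h)) := by
        rw [hc', mul_assoc]
        refine mul_le_mul_of_nonneg_left ?_ hc0
        unfold H22.nn
        calc ∑ x, |(h x : ℝ)| ≤ ∑ _x : V n, A * (Tv es h + √(Q h)) :=
              Finset.sum_le_sum fun x _ => hb2 h hX x
          _ = _ := by rw [Finset.sum_const, Finset.card_univ, nsmul_eq_mul]; ring
      have h2 : -(Q h) / 2 ≤ c' ^ 2 / 2 - c' * √(Q h) := by
        have := Real.sq_sqrt (hQ h)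
        nlinarith [sq_nonneg (√(Q h) - c')]
      have h3 := prod_wI_le hb es c' h
      unfold wt
      rw [if_pos hX, one_mul]
      calc (∏ e ∈ es, wI b (h (tgt e) - h e.1)) * Real.exp (-(Q h) / 2) ≤
            (Real.exp (b * Real.cosh c') ^ es.card * Real.exp (-(c' * Tv es h))) *
              Real.exp (c' ^ 2 / 2 - c' * √(Q h)) :=
            mul_le_mul h3 (Real.exp_le_exp.2 h2) (Real.exp_pos _).le (by positivity)
        _ = Real.exp (b * Real.cosh c') ^ es.card * Real.exp (c' ^ 2 / 2) *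
              Real.exp (-(c' * (Tv es h + √(Q h)))) := by
            have e1 : Real.exp (-(c' * Tv es h)) * Real.exp (c' ^ 2 / 2 - c' * √(Q h)) =
                Real.exp (c' ^ 2 / 2) * Real.exp (-(c' * (Tv es h + √(Q h)))) := by
              rw [← Real.exp_add, ← Real.exp_add]
              congr 1
              ring
            linear_combination (Real.exp (b * Real.cosh c') ^ es.card) * e1
        _ ≤ _ := by
            refine mul_le_mul_of_nonneg_left (Real.exp_le_exp.2 ?_) (by positivity)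
            linarith
    · unfold wt
      rw [if_neg hX, zero_mul, zero_mul]
      positivity

/-- the Ginibre property -/
theorem gle_wt {b : ℝ} (hb : 0 ≤ b) {es : Finset (V n × Bool)} {X : Finset (V n)}
    {Q : (V n → ℤ) → ℝ} (hQ : SQ Q) (hw : SG (wt b es X Q)) :
    Gle (wt b es X Q) (wt b es X Q) := by
  have e : wt b es X Q = fun h => W (Dg es) (fun _ => b) h *
      (iX (X : Set (V n)) h * Real.exp (-(Q h / 2))) := funext fun h => wt_eq b es X Q h
  rw [e] at hw ⊢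
  exact gle_quad (Dg es) (fun _ => hb) _ hQ.nonneg hQ.par hw

/-- edges are positive definite factors -/
lemma pd_edges {b : ℝ} (hb : 0 ≤ b) (es : Finset (V n × Bool)) :
    PD fun h : V n → ℤ => ∏ e ∈ es, wI b (h (tgt e) - h e.1) := by
  classical
  refine PD.prod es fun e _ => ?_
  refine PD.bessel hb (fun h => h (tgt e) - h e.1) (Pi.single (tgt e) 1 - Pi.single e.1 1)
    fun h => ?_
  unfold H708.lf
  simp only [Pi.sub_apply, sub_mul, Finset.sum_sub_distrib, Pi.single_apply, ite_mul, one_mul,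
    zero_mul, Finset.sum_ite_eq', Finset.mem_univ, if_true]
  push_cast
  ring

omit [NeZero n] in
/-- expectation as a ratio -/
lemma ex_eq (b : ℝ) (es : Finset (V n × Bool)) (X : Finset (V n)) (Q : (V n → ℤ) → ℝ)
    (F : (V n → ℤ) → ℝ) : ex b es X Q F =
      H22.MM (wt b es X Q) F / H22.MM (wt b es X Q) fun _ => 1 := by
  unfold ex H22.MM
  simp only [mul_one]

omit [NeZero n] in
lemma wt_zero_pos {b : ℝ} (hb : 0 ≤ b) (es : Finset (V n × Bool)) (X : Finset (V n))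
    (Q : (V n → ℤ) → ℝ) : 0 < wt b es X Q 0 := by
  classical
  unfold wt
  have h0 : ∀ x ∈ X, (0 : V n → ℤ) x = 0 := fun x _ => rfl
  rw [if_pos h0, one_mul]
  refine mul_pos (Finset.prod_pos fun e _ => ?_) (Real.exp_pos _)
  simpa using wI_zero_pos hb

lemma MM_one_pos {b : ℝ} (hb : 0 ≤ b) {es : Finset (V n × Bool)} {X : Finset (V n)}
    {Q : (V n → ℤ) → ℝ} (hw : SG (wt b es X Q)) :
    0 < H22.MM (wt b es X Q) fun _ => 1 := by
  have hs := hw.sum (H22.Gr.const (1 : ℝ))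
  refine lt_of_lt_of_le (wt_zero_pos hb es X Q) ?_
  have := hs.le_tsum 0 fun h _ => mul_nonneg (hw.nonneg h) zero_le_one
  rw [mul_one] at this
  exact this

/-- **MONO in the letters of `Spec/I.lean`**: more edges, more pins, more mass (a sum of squares)
lower the increasing observables. -/
theorem ex_mono {b : ℝ} (hb : 0 ≤ b) {es es' : Finset (V n × Bool)} {X X' : Finset (V n)}
    {Q R : (V n → ℤ) → ℝ} (hes : es ⊆ es') (hX : X ⊆ X') (hQ : SQ Q) (hR : SQ R)
    (hc : Coe es X Q) {F : (V n → ℤ) → ℝ} (hF : Inc F) :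
    ex b es' X' (fun h => Q h + R h) F ≤ ex b es X Q F := by
  classical
  have hw := sg_wt hb hQ.nonneg hQ.even hc
  have hG := gle_wt hb hQ hw
  have hc' : Coe es' X' fun h => Q h + R h := hc.mono hes hX fun h => by
    have := hR.nonneg h
    linarith
  have hw' := sg_wt (b := b) hb (hQ.add hR).nonneg (hQ.add hR).even hc'
  set ψ : (V n → ℤ) → ℝ := fun h => (∏ e ∈ es' \ es, wI b (h (tgt e) - h e.1)) *
    (iX (X' : Set (V n)) h * Real.exp (-(R h / 2))) with hψ
  have pψ : PD ψ := (pd_edges hb _).mul_pd ((PD.iX _).mul_pd hR.pd)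
  have key := mono_pd hw hG hF pψ
  have e1 : ∀ h, wt b es' X' (fun h => Q h + R h) h = wt b es X Q h * ψ h := by
    intro h
    simp only [hψ]
    unfold wt iX
    rw [← Finset.prod_sdiff hes, show -(Q h + R h) / 2 = -(Q h) / 2 + -(R h / 2) by ring,
      Real.exp_add]
    by_cases h1 : ∀ x ∈ X', h x = 0
    · rw [if_pos h1, if_pos (fun x hx => h1 x (hX hx)), if_pos (by simpa using h1)]
      ring
    · rw [if_neg h1, if_neg (c := ∀ x ∈ (X' : Set (V n)), h x = 0) (by simpa using h1)]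
      ring
  have e2 : ∀ G : (V n → ℤ) → ℝ, H22.MM (wt b es' X' (fun h => Q h + R h)) G =
      H22.MM (wt b es X Q) fun h => G h * ψ h := by
    intro G
    unfold H22.MM
    exact tsum_congr fun h => by rw [e1]; ring
  rw [ex_eq, ex_eq, div_le_div_iff₀ (MM_one_pos hb hw') (MM_one_pos hb hw), e2, e2]
  simpa only [one_mul] using key

end wts

end Vale.Agent.P159.TM.H574
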