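import Vale.Agent.P159.TM.H574.UV

/-!
The zero mode: `E (avg h)^4 ≤ C (κ)` when the mass form is `κ² (avg h)² + R` with `R` invariant
under global shifts.
-/

open Filter Topology

namespace Vale.Agent.P159.TM.H574

open Vale.Agent.P159.TM.H22 (SG Gle lin)
open Vale.Agent.P159.TM.SpecI
open Vale.Agent.P159.H353 (wI wI_nonneg wI_neg wI_zero_pos)

section abs

variable {G : Type} [AddCommGroup G]

/-- splitting off the integer part of an equivariant functional -/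
noncomputable def shE (A : G → ℝ) (τ : ℤ →+ G) (hA : ∀ h z, A (h + τ z) = A h + z) :
    {g : G // ⌊A g⌋ = 0} × ℤ ≃ G where
  toFun x := x.1.1 + τ x.2
  invFun h := (⟨h - τ ⌊A h⌋, by
    have h1 := hA (h - τ ⌊A h⌋) ⌊A h⌋
    rw [sub_add_cancel] at h1
    have h2 : A (h - τ ⌊A h⌋) = A h - ⌊A h⌋ := by linarith
    rw [h2, Int.floor_sub_intCast, sub_self]⟩, ⌊A h⌋)
  left_inv x := by
    obtain ⟨⟨g, hg⟩, z⟩ := x
    have h1 : ⌊A (g + τ z)⌋ = z := by rw [hA, Int.floor_add_intCast, hg, zero_add]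
    refine Prod.ext (Subtype.ext ?_) ?_
    · simp only
      rw [h1, add_sub_cancel_right]
    · exact h1
  right_inv h := by simp

lemma summ_z {κ : ℝ} (hκ : 0 < κ) :
    Summable fun z : ℤ => (1 + (z : ℝ) ^ 4) * Real.exp (-(κ ^ 2 * (z : ℝ) ^ 2 / 4)) := by
  have h1 := H129.summable_gauss (m := κ ^ 2 / 4) (by positivity)
  refine Summable.of_nonneg_of_le (fun z => by positivity) (fun z => ?_)
    (h1.mul_left (1 + 128 / κ ^ 4))
  set y : ℝ := κ ^ 2 * (z : ℝ) ^ 2 / 8 with hy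
  have hy0 : 0 ≤ y := by positivity
  have h2 := Real.quadratic_le_exp_of_nonneg hy0
  have h3 : 1 + (z : ℝ) ^ 4 ≤ (1 + 128 / κ ^ 4) * Real.exp y := by
    have h4 : (z : ℝ) ^ 4 = 128 / κ ^ 4 * (y ^ 2 / 2) := by
      rw [hy]
      field_simp
      ring
    have h5 : 1 ≤ Real.exp y := Real.one_le_exp hy0
    have h6 : y ^ 2 / 2 ≤ Real.exp y := by linarith
    rw [h4, add_mul, one_mul]
    refine add_le_add h5 (mul_le_mul_of_nonneg_left h6 (by positivity))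
  calc (1 + (z : ℝ) ^ 4) * Real.exp (-(κ ^ 2 * (z : ℝ) ^ 2 / 4)) ≤
        (1 + 128 / κ ^ 4) * Real.exp y * Real.exp (-(κ ^ 2 * (z : ℝ) ^ 2 / 4)) :=
        mul_le_mul_of_nonneg_right h3 (Real.exp_pos _).le
    _ = _ := by
        rw [mul_assoc, ← Real.exp_add]
        congr 2
        rw [hy]
        ring

/-- the constant -/
noncomputable def Cz (κ : ℝ) : ℝ := 8 * Real.exp (κ ^ 2 / 2) *
  (∑' z : ℤ, (1 + (z : ℝ) ^ 4) * Real.exp (-(κ ^ 2 * (z : ℝ) ^ 2 / 4))) * Real.exp (κ ^ 2 / 2)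

lemma zterm_le {κ a : ℝ} (ha : 0 ≤ a) (ha1 : a ≤ 1) (z : ℤ) :
    Real.exp (-(κ ^ 2 * (a + z) ^ 2 / 2)) * (a + z) ^ 4 ≤ 8 * Real.exp (κ ^ 2 / 2) *
      ((1 + (z : ℝ) ^ 4) * Real.exp (-(κ ^ 2 * (z : ℝ) ^ 2 / 4))) := by
  have h1 : (a + z) ^ 4 ≤ 8 * (1 + (z : ℝ) ^ 4) := by
    have h2 : (a + z) ^ 2 ≤ 2 * (1 + (z : ℝ) ^ 2) := by
      nlinarith [sq_nonneg (a - z), mul_nonneg ha (sub_nonneg.2 ha1)]
    have h3 : ((a + z) ^ 2) ^ 2 ≤ (2 * (1 + (z : ℝ) ^ 2)) ^ 2 :=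
      pow_le_pow_left₀ (sq_nonneg _) h2 2
    nlinarith [sq_nonneg ((z : ℝ) ^ 2 - 1)]
  have h4 : Real.exp (-(κ ^ 2 * (a + z) ^ 2 / 2)) ≤
      Real.exp (κ ^ 2 / 2) * Real.exp (-(κ ^ 2 * (z : ℝ) ^ 2 / 4)) := by
    rw [← Real.exp_add]
    refine Real.exp_le_exp.2 ?_
    have h5 : (z : ℝ) ^ 2 ≤ 2 * (a + z) ^ 2 + 2 := by
      nlinarith [sq_nonneg (2 * a + z), mul_nonneg ha (sub_nonneg.2 ha1)]
    have := mul_le_mul_of_nonneg_left h5 (sq_nonneg κ)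
    linarith
  calc _ ≤ (Real.exp (κ ^ 2 / 2) * Real.exp (-(κ ^ 2 * (z : ℝ) ^ 2 / 4))) *
        (8 * (1 + (z : ℝ) ^ 4)) := mul_le_mul h4 h1 (by positivity) (by positivity)
    _ = _ := by ring

/-- fourth moment of an equivariant functional -/
theorem zero_abs {κ : ℝ} (hκ : 0 < κ) (A : G → ℝ) (τ : ℤ →+ G)
    (hA : ∀ h z, A (h + τ z) = A h + z) {u : G → ℝ} (hu : ∀ h, 0 ≤ u h)
    (hut : ∀ h z, u (h + τ z) = u h)
    (hs0 : Summable fun h => u h * Real.exp (-(κ ^ 2 * A h ^ 2 / 2)))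
    (hs4 : Summable fun h => u h * Real.exp (-(κ ^ 2 * A h ^ 2 / 2)) * A h ^ 4) :
    ∑' h, u h * Real.exp (-(κ ^ 2 * A h ^ 2 / 2)) * A h ^ 4 ≤
      Cz κ * ∑' h, u h * Real.exp (-(κ ^ 2 * A h ^ 2 / 2)) := by
  set e := shE A τ hA with he
  have s0 := (e.summable_iff).2 hs0
  have s4 := (e.summable_iff).2 hs4
  rw [← e.tsum_eq (fun h => u h * Real.exp (-(κ ^ 2 * A h ^ 2 / 2)) * A h ^ 4),
    ← e.tsum_eq (fun h => u h * Real.exp (-(κ ^ 2 * A h ^ 2 / 2)))]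
  have v0 : ∀ x : {g : G // ⌊A g⌋ = 0} × ℤ, u (e x) * Real.exp (-(κ ^ 2 * A (e x) ^ 2 / 2)) =
      u x.1 * Real.exp (-(κ ^ 2 * (A x.1 + x.2) ^ 2 / 2)) := by
    intro x
    have : e x = x.1.1 + τ x.2 := rfl
    rw [this, hut, hA]
  have v4 : ∀ x : {g : G // ⌊A g⌋ = 0} × ℤ,
      u (e x) * Real.exp (-(κ ^ 2 * A (e x) ^ 2 / 2)) * A (e x) ^ 4 =
      u x.1 * (Real.exp (-(κ ^ 2 * (A x.1 + x.2) ^ 2 / 2)) * (A x.1 + x.2) ^ 4) := by
    intro x
    rw [v0]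
    have : e x = x.1.1 + τ x.2 := rfl
    rw [this, hA]
    ring
  have s0' : Summable fun x : {g : G // ⌊A g⌋ = 0} × ℤ =>
      u x.1 * Real.exp (-(κ ^ 2 * (A x.1 + x.2) ^ 2 / 2)) := s0.congr v0
  have s4' : Summable fun x : {g : G // ⌊A g⌋ = 0} × ℤ =>
      u x.1 * (Real.exp (-(κ ^ 2 * (A x.1 + x.2) ^ 2 / 2)) * (A x.1 + x.2) ^ 4) := s4.congr v4
  rw [tsum_congr v0, tsum_congr v4, s0'.tsum_prod, s4'.tsum_prod, ← tsum_mul_left]
  refine s4'.prod.tsum_le_tsum (fun g => ?_) (s0'.prod.mul_left _)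
  have ha : 0 ≤ A g := by
    have := Int.floor_le (A (g : G))
    rw [g.2] at this
    exact_mod_cast this
  have ha1 : A g ≤ 1 := by
    have := Int.lt_floor_add_one (A (g : G))
    rw [g.2] at this
    push_cast at this
    linarith
  simp only
  rw [tsum_mul_left, tsum_mul_left, mul_left_comm]
  refine mul_le_mul_of_nonneg_left ?_ (hu _)
  have sz := summ_z hκ
  have b1 : ∀ z : ℤ, 0 ≤ Real.exp (-(κ ^ 2 * (A g + z) ^ 2 / 2)) * (A g + z) ^ 4 :=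
    fun z => by positivity
  have t4 : Summable fun z : ℤ => Real.exp (-(κ ^ 2 * (A g + z) ^ 2 / 2)) * (A g + z) ^ 4 :=
    Summable.of_nonneg_of_le b1 (fun z => zterm_le ha ha1 z) (sz.mul_left _)
  have t0 : Summable fun z : ℤ => Real.exp (-(κ ^ 2 * (A g + z) ^ 2 / 2)) := by
    have h5 := H129.summable_gauss (m := κ ^ 2 / 2) (by positivity)
    refine Summable.of_nonneg_of_le (fun z => (Real.exp_pos _).le) (fun z => ?_)
      (h5.mul_left (Real.exp (κ ^ 2 / 2)))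
    rw [← Real.exp_add]
    refine Real.exp_le_exp.2 ?_
    have h6 : (z : ℝ) ^ 2 ≤ 2 * (A g + z) ^ 2 + 2 := by
      nlinarith [sq_nonneg (2 * A g + z), mul_nonneg ha (sub_nonneg.2 ha1)]
    have := mul_le_mul_of_nonneg_left h6 (sq_nonneg κ)
    linarith
  have l4 : ∑' z : ℤ, Real.exp (-(κ ^ 2 * (A g + z) ^ 2 / 2)) * (A g + z) ^ 4 ≤
      8 * Real.exp (κ ^ 2 / 2) *
        ∑' z : ℤ, (1 + (z : ℝ) ^ 4) * Real.exp (-(κ ^ 2 * (z : ℝ) ^ 2 / 4)) := by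
    rw [← tsum_mul_left]
    exact t4.tsum_le_tsum (fun z => zterm_le ha ha1 z) (sz.mul_left _)
  have l0 : Real.exp (-(κ ^ 2 / 2)) ≤ ∑' z : ℤ, Real.exp (-(κ ^ 2 * (A g + z) ^ 2 / 2)) := by
    refine le_trans ?_ (t0.le_tsum 0 fun z _ => (Real.exp_pos _).le)
    refine Real.exp_le_exp.2 ?_
    push_cast
    have : A g ^ 2 ≤ 1 := by nlinarith
    have := mul_le_mul_of_nonneg_left this (sq_nonneg κ)
    rw [add_zero]
    linarith
  refine l4.trans ?_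
  unfold Cz
  have hS : 0 ≤ ∑' z : ℤ, (1 + (z : ℝ) ^ 4) * Real.exp (-(κ ^ 2 * (z : ℝ) ^ 2 / 4)) :=
    tsum_nonneg fun z => by positivity
  set S := ∑' z : ℤ, (1 + (z : ℝ) ^ 4) * Real.exp (-(κ ^ 2 * (z : ℝ) ^ 2 / 4)) with hSd
  have h7 : 8 * Real.exp (κ ^ 2 / 2) * S = 8 * Real.exp (κ ^ 2 / 2) * S * Real.exp (κ ^ 2 / 2) *
      Real.exp (-(κ ^ 2 / 2)) := by
    rw [mul_assoc (8 * Real.exp (κ ^ 2 / 2) * S), ← Real.exp_add, add_neg_cancel, Real.exp_zero,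
      mul_one]
  exact h7.trans_le (mul_le_mul_of_nonneg_left l0 (by positivity))

end abs

/-- constant shift -/
def csh {n : ℕ} : ℤ →+ (V n → ℤ) where
  toFun z := fun _ => z
  map_zero' := rfl
  map_add' _ _ := rfl

lemma avg_shift {n : ℕ} {r : ℕ} (hr : 1 ≤ r) (c : ℕ × ℕ) (h : V n → ℤ) (z : ℤ) :
    SpecI.avg r c (h + csh z) = SpecI.avg r c h + z := by
  have : (r : ℝ) ≠ 0 := by exact_mod_cast (by omega : r ≠ 0)
  unfold SpecI.avg csh
  simp only [AddMonoidHom.coe_mk, ZeroHom.coe_mk, Pi.add_apply, Int.cast_add,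
    Finset.sum_add_distrib, Finset.sum_const, Finset.card_range, nsmul_eq_mul]
  field_simp

lemma Qd_shift {κ : ℝ} {k j : ℕ} (h : V (2 ^ k) → ℤ) (z : ℤ) :
    Qd κ k j (h + csh z) = Qd κ k j h := by
  unfold Qd Dc
  congr 2
  refine Finset.sum_congr rfl fun c _ => ?_
  rw [avg_shift Nat.one_le_two_pow, avg_shift (by have := Nat.one_le_two_pow (n := k - (j + 1)); omega)]
  congr 1
  ring

lemma massA_shift {κ : ℝ} {k j : ℕ} (hj : j ≤ k) (h : V (2 ^ k) → ℤ) (z : ℤ) :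
    massA κ k j (h + csh z) - massA κ k 0 (h + csh z) = massA κ k j h - massA κ k 0 h := by
  induction j with
  | zero => simp
  | succ j ih =>
    rw [massA_succ κ hj, massA_succ κ hj, Qd_shift]
    linarith [ih (by omega)]

/-- **zero mode**: fourth moment of the mean along the mass path -/
theorem zero_mom {b κ : ℝ} (hb : 0 ≤ b) (hκ : 0 < κ) {k j : ℕ} (hj : j + 1 ≤ k) {t : ℝ}
    (ht : 0 ≤ t) (ht1 : t ≤ 1) :
    SG (wt b (inn (2 ^ k)) ∅ (fun h => (1 - t) * massA κ k j h + t * massA κ k (j + 1) h)) ∧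
    ex b (inn (2 ^ k)) ∅ (fun h => (1 - t) * massA κ k j h + t * massA κ k (j + 1) h)
      (fun h => SpecI.avg (2 ^ k) (0, 0) h ^ 4) ≤ Cz κ := by
  classical
  set M : (V (2 ^ k) → ℤ) → ℝ := fun h => (1 - t) * massA κ k j h + t * massA κ k (j + 1) h
    with hM
  have sqM : SQ M := ((sq_massA κ k j).smul (sub_nonneg.2 ht1)).add
    ((sq_massA κ k (j + 1)).smul ht)
  have hle : ∀ h, massA κ k 0 h ≤ M h := fun h => by
    have h1 := massA_le (κ := κ) (show j ≤ k by omega) h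
    have h2 := massA_le (κ := κ) hj h
    rw [hM]
    simp only
    nlinarith [sub_nonneg.2 ht1]
  have coM : Coe (inn (2 ^ k)) ∅ M :=
    (coe_massA hκ (Nat.zero_le k)).mono subset_rfl subset_rfl hle
  have sg := sg_wt hb sqM.nonneg sqM.even coM
  refine ⟨sg, ?_⟩
  set A : (V (2 ^ k) → ℤ) → ℝ := fun h => SpecI.avg (2 ^ k) (0, 0) h with hA
  set u : (V (2 ^ k) → ℤ) → ℝ := fun h =>
    (∏ e ∈ inn (2 ^ k), wI b (h (tgt e) - h e.1)) * Real.exp (-(M h - massA κ k 0 h) / 2) with hu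
  have hw : ∀ h, wt b (inn (2 ^ k)) ∅ M h = u h * Real.exp (-(κ ^ 2 * A h ^ 2 / 2)) := by
    intro h
    have h0 : massA κ k 0 h = κ ^ 2 * A h ^ 2 := massA_zero κ k h
    unfold wt
    rw [if_pos (by simp), one_mul, hu]
    simp only
    rw [h0, mul_assoc, ← Real.exp_add]
    congr 2
    ring
  have hu0 : ∀ h, 0 ≤ u h := fun h =>
    mul_nonneg (Finset.prod_nonneg fun e _ => wI_nonneg hb _) (Real.exp_pos _).le
  have hut : ∀ h z, u (h + csh z) = u h := by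
    intro h z
    simp only [hu]
    congr 1
    · refine Finset.prod_congr rfl fun e _ => ?_
      congr 1
      simp only [csh, AddMonoidHom.coe_mk, ZeroHom.coe_mk, Pi.add_apply]
      ring
    · congr 2
      have h1 := massA_shift (κ := κ) (show j ≤ k by omega) h z
      have h2 := massA_shift (κ := κ) hj h z
      rw [hM]
      simp only
      linear_combination (-(1 - t)) * h1 - t * h2
  have hAt : ∀ h z, A (h + csh z) = A h + z := fun h z => avg_shift Nat.one_le_two_pow _ h z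
  have gA : H22.Gr fun h : V (2 ^ k) → ℤ => A h ^ 4 := by
    have h3 := (gr_sq (V := V (2 ^ k)) (avc (2 ^ k) (0, 0))).mul (gr_sq (avc (2 ^ k) (0, 0)))
    refine h3.mono fun h => ?_
    have e : A h = lin (avc (2 ^ k) (0, 0)) h := avg_lin _ _ _
    rw [e, show lin (avc (2 ^ k) (0, 0)) h ^ 4 =
      lin (avc (2 ^ k) (0, 0)) h ^ 2 * lin (avc (2 ^ k) (0, 0)) h ^ 2 by ring]
  have s0 : Summable fun h => u h * Real.exp (-(κ ^ 2 * A h ^ 2 / 2)) :=
    (sg.sum (H22.Gr.const (1 : ℝ))).congr fun h => by rw [mul_one, hw]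
  have s4 : Summable fun h => u h * Real.exp (-(κ ^ 2 * A h ^ 2 / 2)) * A h ^ 4 :=
    (sg.sum gA).congr fun h => by rw [hw]
  have key := zero_abs hκ A csh hAt hu0 hut s0 s4
  rw [ex_eq, div_le_iff₀ (MM_one_pos hb sg)]
  have e0 : H22.MM (wt b (inn (2 ^ k)) ∅ M) (fun _ => 1) =
      ∑' h, u h * Real.exp (-(κ ^ 2 * A h ^ 2 / 2)) := by
    unfold H22.MM
    exact tsum_congr fun h => by rw [mul_one, hw]
  have e4 : H22.MM (wt b (inn (2 ^ k)) ∅ M) (fun h => SpecI.avg (2 ^ k) (0, 0) h ^ 4) =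
      ∑' h, u h * Real.exp (-(κ ^ 2 * A h ^ 2 / 2)) * A h ^ 4 := by
    unfold H22.MM
    exact tsum_congr fun h => by rw [hw]
  rw [e0, e4]
  exact key

end Vale.Agent.P159.TM.H574
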